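import Vale.Agent.P141.H336.TVr

/-!
# P141, line (A): plane energy from numbers of the single diagonals

`TV_diag`: own energies `EW` at the lag `r` at most `A X r`, level energies on the diagonal `r` at
most `B X r`; then `TV ≤ (20 A + 18 B) ∑ (3/4)^r X r`.
-/

namespace Vale.Agent.P141.H912

open Finset Matrix Vale.Agent.P075 Vale.Agent.P141.PL Vale.Agent.P141.H103 Vale.Agent.P141.H389

noncomputable section

/-- weighted sum of the numbers of the diagonals -/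
def wS (N : ℕ) (X : ℕ → ℝ) : ℝ := ∑ r ∈ range (N + 1), (3 / 4 : ℝ) ^ r * X r

theorem wS_nonneg {N : ℕ} {X : ℕ → ℝ} (h : ∀ r, 0 ≤ X r) : 0 ≤ wS N X :=
  sum_nonneg fun r _ => mul_nonneg (by positivity) (h r)

theorem wS_mono {N : ℕ} {X Y : ℕ → ℝ} (h : ∀ r, X r ≤ Y r) : wS N X ≤ wS N Y :=
  sum_le_sum fun r _ => mul_le_mul_of_nonneg_left (h r) (by positivity)

theorem wS_zero_le {N : ℕ} {X : ℕ → ℝ} (h : ∀ r, 0 ≤ X r) : X 0 ≤ wS N X := by
  have h2 : (3 / 4 : ℝ) ^ 0 * X 0 ≤ ∑ r ∈ range (N + 1), (3 / 4 : ℝ) ^ r * X r :=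
    single_le_sum (f := fun r => (3 / 4 : ℝ) ^ r * X r)
      (fun r _ => mul_nonneg (by positivity) (h r)) (mem_range.2 (by omega))
  rw [pow_zero, one_mul] at h2
  exact h2

theorem wS_smul (N : ℕ) (c : ℝ) (X : ℕ → ℝ) : wS N (fun r => c * X r) = c * wS N X := by
  unfold wS
  rw [mul_sum]
  exact sum_congr rfl fun r _ => by ring

theorem wS_add (N : ℕ) (X Y : ℕ → ℝ) : wS N (fun r => X r + Y r) = wS N X + wS N Y := by
  unfold wS
  rw [← sum_add_distrib]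
  exact sum_congr rfl fun r _ => by ring

theorem wS_sum {I : Type*} (s : Finset I) (N : ℕ) (X : I → ℕ → ℝ) :
    ∑ i ∈ s, wS N (X i) = wS N fun r => ∑ i ∈ s, X i r := by
  unfold wS
  rw [sum_comm]
  exact sum_congr rfl fun r _ => by rw [mul_sum]

theorem wS_const_le {N : ℕ} {X : ℕ → ℝ} {B : ℝ} (hB : 0 ≤ B) (h : ∀ r, X r ≤ B) :
    wS N X ≤ 4 * B := by
  refine (wS_mono h).trans ?_
  unfold wS
  rw [← sum_mul]
  exact mul_le_mul_of_nonneg_right (H336.geo _) hB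

/-- **Plane energy from the numbers of the diagonals.** -/
theorem TV_diag {k₀ N : ℕ} (hkN : k₀ ≤ N) {R S : ℤ} {ι : ℕ → Type*} [∀ k, Fintype (ι k)]
    {V : ∀ k, ℕ → ℤ → ℤ → Matrix (ι k) (ι k) ℝ} {A B : ℝ} {X : ℕ → ℝ} (hA : 0 ≤ A) (hB : 0 ≤ B)
    (hX0 : ∀ r, 0 ≤ X r)
    (hEW : ∀ k r, k₀ ≤ k → k + r ≤ N → EW N R S k (V k) (k + r) ≤ A * X r)
    (hdiag : ∀ r, ∑ k ∈ Ico k₀ (N - r),
      ((2 : ℝ) ^ k * ∑ m ∈ iv (N - k) S, lvV N R (fun a n => V k a n m) (k + r)) ≤ B * X r) :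
    TV k₀ N R S V ≤ (20 * A + 18 * B) * wS N X := by
  have hXw : X 0 ≤ wS N X := wS_zero_le hX0
  have hw0 : 0 ≤ wS N X := wS_nonneg hX0
  have hall := H336.diag_sumR (k₀ := k₀) (N := N)
    (f := fun k r => (2 : ℝ) ^ k * ∑ m ∈ iv (N - k) S, lvV N R (fun a n => V k a n m) (k + r))
    hdiag (fun r => mul_nonneg hB (hX0 r))
  have hall' : ∑ r ∈ range (N + 1), (3 / 4 : ℝ) ^ r * (B * X r) = B * wS N X := by
    rw [wS, mul_sum]
    exact sum_congr rfl fun r _ => by ring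
  rw [hall'] at hall
  -- the top
  have htop : ∑ k ∈ Ico k₀ N, (3 / 4 : ℝ) ^ (N - k) * EW N R S k (V k) N ≤ A * wS N X := by
    have t1 : ∑ k ∈ Ico k₀ N, (3 / 4 : ℝ) ^ (N - k) * EW N R S k (V k) N
        ≤ ∑ k ∈ Ico k₀ N, (3 / 4 : ℝ) ^ (N - k) * (A * X (N - k)) := by
      refine sum_le_sum fun k hk => ?_
      obtain ⟨k1, k2⟩ := mem_Ico.1 hk
      have := hEW k (N - k) k1 (by omega)
      rw [show k + (N - k) = N by omega] at this
      exact mul_le_mul_of_nonneg_left this (by positivity)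
    have t2 : ∑ k ∈ Ico k₀ N, (3 / 4 : ℝ) ^ (N - k) * (A * X (N - k))
        = ∑ r ∈ (Ico k₀ N).image (fun k => N - k), (3 / 4 : ℝ) ^ r * (A * X r) := by
      rw [sum_image]
      intro a ha b hb hab
      have ha' := mem_Ico.1 (Finset.mem_coe.1 ha)
      have hb' := mem_Ico.1 (Finset.mem_coe.1 hb)
      have : N - a = N - b := hab
      omega
    have t3 : ∑ r ∈ (Ico k₀ N).image (fun k => N - k), (3 / 4 : ℝ) ^ r * (A * X r)
        ≤ ∑ r ∈ range (N + 1), (3 / 4 : ℝ) ^ r * (A * X r) := by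
      refine sum_le_sum_of_subset_of_nonneg ?_ fun r _ _ =>
        mul_nonneg (by positivity) (mul_nonneg hA (hX0 r))
      intro r hr
      obtain ⟨k, _, rfl⟩ := mem_image.1 hr
      rw [mem_range]
      omega
    have t4 : ∑ r ∈ range (N + 1), (3 / 4 : ℝ) ^ r * (A * X r) = A * wS N X := by
      rw [wS, mul_sum]
      exact sum_congr rfl fun r _ => by ring
    linarith
  have hSVM : ∀ k, SVM N k R S (V k)
      = ∑ r ∈ range (N - k), (3 / 4 : ℝ) ^ r * ((2 : ℝ) ^ k * ∑ m ∈ iv (N - k) S,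
          lvV N R (fun a n => V k a n m) (k + r))
        + (3 / 4 : ℝ) ^ (N - k) * EW N R S k (V k) N := by
    intro k
    unfold SVM SV
    rw [EW_eq, sum_add_distrib, mul_add, sum_comm]
    congr 1
    · rw [mul_sum]
      refine sum_congr rfl fun r _ => ?_
      rw [← mul_sum]
      ring
    · rw [← mul_sum]
      ring
  have hsum : ∑ k ∈ Ico k₀ N, SVM N k R S (V k) ≤ (A + B) * wS N X := by
    simp only [hSVM, sum_add_distrib]
    linarith
  have hst : EW N R S k₀ (V k₀) k₀ ≤ A * wS N X :=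
    (hEW k₀ 0 le_rfl (by simpa using hkN)).trans (mul_le_mul_of_nonneg_left hXw hA)
  have hNN : EW N R S N (V N) N ≤ A * wS N X :=
    (hEW N 0 hkN (by simp)).trans (mul_le_mul_of_nonneg_left hXw hA)
  unfold TV
  nlinarith

end

end Vale.Agent.P141.H912
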