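import Vale.Agent.P141.H419.TVpg
import Vale.Agent.P141.H912.TVdiag

/-!
# P141, line (A), (TI): hub `x1`, moving weight, numbers indexed by the diagonal

`WFamL` : the data of `H419.TVpg.WFam` with one number for every diagonal `r`, the energy asked only
at the first hub scale `k₀`.

* `WFamL.key`, `WFamL.own_diag`, `WFamL.en` : own defects and own energies, every diagonal;
* `WFamL.OM`, `WFamL.OO` : the two own numbers of `WPair.total` (diagonal `0`);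
* `WFamL.TV_pg` : the plane energy of the family `pg s Θ (S S) G`, sum over the diagonals with the
  weights `(3/4)^r`.
-/

set_option linter.unusedSectionVars false

namespace Vale.Agent.P141.H912

open Finset Matrix Vale.Agent.P075 Vale.Agent.P141.PL Vale.Agent.P141.PL.H103 Vale.Agent.P141.H103
open Vale.Agent.P141.H389 Vale.Agent.P141.H505 Vale.Agent.P141.H336
open Vale.Agent.P141.H585.PairCh Vale.Agent.P141.H585.PairO
open Vale.Agent.P141.H419.PairW Vale.Agent.P141.H419.PairB Vale.Agent.P141.H419.TVpg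

noncomputable section

/-- the families of the second slot at the hub, one number for every diagonal -/
structure WFamL (k₀ N : ℕ) (R S : ℤ) {ι : ℕ → Type*} [∀ k, Fintype (ι k)]
    [∀ k, DecidableEq (ι k)] (μ : ℝ) (J : ℕ) (τ β : ℝ)
    (Sr Θ G E M : ∀ k, ℕ → ℤ → ℤ → Matrix (ι k) (ι k) ℝ)
    (rr : ∀ k, Matrix (ι (k + 1)) (ι (k + 1)) ℝ) (p : ℕ → ℕ → ℤ → ℤ → ℝ)
    (H ZM ZE ZQ Qm : ℕ → ℝ) : Prop where
  hkN : k₀ ≤ N
  hμ : 0 < μ
  hτ : 0 ≤ τ
  hβ : 0 < β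
  pS : ∀ k a n m, (Sr k a n m).PosSemidef
  uS : ∀ k a n m, IsUnit (Sr k a n m).det
  bS : ∀ k a n m, (Sr k a n m * Sr k a n m - β • 1).PosSemidef
  sΘ : ∀ k a n m, (Θ k a n m)ᵀ = Θ k a n m
  tΘ : ∀ k a n m, (τ • (Sr k a n m * Sr k a n m) - Θ k a n m * Θ k a n m).PosSemidef
  pG : ∀ k a n m, (G k a n m).PosSemidef
  sM : ∀ k a n m, (M k a n m)ᵀ = M k a n m
  pE : ∀ k a n m, (E k a n m).PosSemidef
  par : ∀ k a n m, k₀ ≤ k → k ≤ a → a < N →
    G k (a + 1) n m = (1 / 2 : ℝ) • (G k a (2 * n) m + G k a (2 * n + 1) m)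
  S0 : ∀ k a n m, k₀ ≤ k → k ≤ a → a < N → Sr k a (2 * n) m * Sr k a (2 * n) m
    = Sr k (a + 1) n m * Sr k (a + 1) n m - E k a n m + M k a n m
  S1 : ∀ k a n m, k₀ ≤ k → k ≤ a → a < N → Sr k a (2 * n + 1) m * Sr k a (2 * n + 1) m
    = Sr k (a + 1) n m * Sr k (a + 1) n m - E k a n m - M k a n m
  Θ0 : ∀ k a n m, k₀ ≤ k → k ≤ a → a < N →
    Θ k a (2 * n) m = Θ k (a + 1) n m - E k a n m + M k a n m
  Θ1 : ∀ k a n m, k₀ ≤ k → k ≤ a → a < N →
    Θ k a (2 * n + 1) m = Θ k (a + 1) n m - E k a n m - M k a n m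
  hr : ∀ k, (rr k)ᵀ = rr k
  hr2 : ∀ k, rr k * rr k = 1
  rS : ∀ k a n m, rr k * Sr (k + 1) a n m = Sr (k + 1) a n m * rr k
  rΘ : ∀ k a n m, rr k * Θ (k + 1) a n m = Θ (k + 1) a n m * rr k
  cap0 : ∀ k a n m, k₀ ≤ k → k ≤ a → a < N →
    (1 - (μ / 4 ^ J) • (Sr k (a + 1) n m * G k a (2 * n) m * Sr k (a + 1) n m)).PosSemidef
  cap1 : ∀ k a n m, k₀ ≤ k → k ≤ a → a < N →
    (1 - (μ / 4 ^ J) • (Sr k (a + 1) n m * G k a (2 * n + 1) m * Sr k (a + 1) n m)).PosSemidef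
  mid : ∀ k a n m, k₀ ≤ k → k + 1 ≤ a → a ≤ N →
    (1 / 2) * SG μ J (Sr (k + 1) a n m * G (k + 1) a n m * Sr (k + 1) a n m
        + rr k * (Sr (k + 1) a n m * G (k + 1) a n m * Sr (k + 1) a n m) * rr k)
      ≤ (1 / 2) * (SG μ J (Sr k a n (2 * m) * G k a n (2 * m) * Sr k a n (2 * m))
        + SG μ J (Sr k a n (2 * m + 1) * G k a n (2 * m + 1) * Sr k a n (2 * m + 1))) + p k a n m
  np : ∀ k a n m, 0 ≤ p k a n m
  nH : ∀ r, 0 ≤ H r
  nZM : ∀ r, 0 ≤ ZM r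
  nZE : ∀ r, 0 ≤ ZE r
  nZQ : ∀ r, 0 ≤ ZQ r
  nQm : ∀ r, 0 ≤ Qm r
  hH : ∀ r, k₀ + r ≤ N →
    bsum N R S k₀ (k₀ + r) (fun n m =>
      (Sr k₀ (k₀ + r) n m * Sr k₀ (k₀ + r) n m * G k₀ (k₀ + r) n m).trace) ≤ H r
  hZM : ∀ r, ∑ k ∈ Ico k₀ (N - r), bsum N R S k (k + r + 1) (fun n m =>
    eM (Sr k (k + r + 1) n m) (M k (k + r) n m) (G k (k + r) (2 * n) m)
      (G k (k + r) (2 * n + 1) m)) ≤ ZM r
  hZE : ∀ r, ∑ k ∈ Ico k₀ (N - r), bsum N R S k (k + r + 1) (fun n m =>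
    eE (E k (k + r) n m) (G k (k + r) (2 * n) m) (G k (k + r) (2 * n + 1) m)) ≤ ZE r
  hZQ : ∀ r, ∑ k ∈ Ico k₀ (N - r), bsum N R S k (k + r + 1) (fun n m =>
    eQ (E k (k + r) n m) (M k (k + r) n m) (G k (k + r) (2 * n) m)
      (G k (k + r) (2 * n + 1) m)) ≤ ZQ r
  hQm : ∀ r, ∑ k ∈ Ico k₀ (N - r), bsum N R S (k + 1) (k + 1 + r)
    (fun n m => p k (k + 1 + r) n m) ≤ Qm r

/-- the own numbers of the diagonals -/
def OwL (J : ℕ) (H ZM ZE Qm : ℕ → ℝ) (r : ℕ) : ℝ := Ow J (H r) (ZM r) (ZE r) (Qm r)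

theorem OwL_eq (J : ℕ) (H ZM ZE Qm : ℕ → ℝ) (r : ℕ) : OwL J H ZM ZE Qm r =
    ((J : ℝ) + 1) * H r + 32 * ((J : ℝ) + 1) ^ 3 * ZM r + (1 / 2) * ((J : ℝ) + 1) * ZE r + Qm r :=
  rfl

theorem OwL_sum {I : Type*} (s : Finset I) (J : ℕ) (H ZM ZE Qm : I → ℕ → ℝ) (r : ℕ) :
    ∑ i ∈ s, OwL J (H i) (ZM i) (ZE i) (Qm i) r
      = OwL J (fun r => ∑ i ∈ s, H i r) (fun r => ∑ i ∈ s, ZM i r) (fun r => ∑ i ∈ s, ZE i r)
        (fun r => ∑ i ∈ s, Qm i r) r := by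
  simp only [OwL_eq, sum_add_distrib, ← mul_sum]

theorem OwL_mono {J : ℕ} {H ZM ZE Qm H' ZM' ZE' Qm' : ℕ → ℝ} {r : ℕ} (h1 : H r ≤ H' r)
    (h2 : ZM r ≤ ZM' r) (h3 : ZE r ≤ ZE' r) (h4 : Qm r ≤ Qm' r) :
    OwL J H ZM ZE Qm r ≤ OwL J H' ZM' ZE' Qm' r := by
  rw [OwL_eq, OwL_eq]
  have a1 := mul_le_mul_of_nonneg_left h1 (by positivity : (0 : ℝ) ≤ (J : ℝ) + 1)
  have a2 := mul_le_mul_of_nonneg_left h2 (by positivity : (0 : ℝ) ≤ 32 * ((J : ℝ) + 1) ^ 3)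
  have a3 := mul_le_mul_of_nonneg_left h3 (by positivity : (0 : ℝ) ≤ (1 / 2) * ((J : ℝ) + 1))
  linarith

/-- all numbers at most `B` -/
theorem OwL_le {J : ℕ} {H ZM ZE Qm : ℕ → ℝ} {B : ℝ} {r : ℕ} (hB : 0 ≤ B) (h1 : H r ≤ B)
    (h2 : ZM r ≤ B) (h3 : ZE r ≤ B) (h4 : Qm r ≤ ((J : ℝ) + 1) * B) :
    OwL J H ZM ZE Qm r ≤ 35 * ((J : ℝ) + 1) ^ 3 * B := by
  rw [OwL_eq]
  have hJ : (0 : ℝ) ≤ J := Nat.cast_nonneg J
  have a1 := mul_le_mul_of_nonneg_left h1 (by positivity : (0 : ℝ) ≤ (J : ℝ) + 1)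
  have a2 := mul_le_mul_of_nonneg_left h2 (by positivity : (0 : ℝ) ≤ 32 * ((J : ℝ) + 1) ^ 3)
  have a3 := mul_le_mul_of_nonneg_left h3 (by positivity : (0 : ℝ) ≤ (1 / 2) * ((J : ℝ) + 1))
  have b1 : (J : ℝ) + 1 ≤ ((J : ℝ) + 1) ^ 3 := by
    have : (1 : ℝ) ≤ (J : ℝ) + 1 := by linarith
    calc (J : ℝ) + 1 = ((J : ℝ) + 1) ^ 1 := (pow_one _).symm
      _ ≤ ((J : ℝ) + 1) ^ 3 := pow_le_pow_right₀ this (by norm_num)
  have b2 := mul_le_mul_of_nonneg_right b1 hB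
  have b3 : 0 ≤ ((J : ℝ) + 1) ^ 3 * B := by positivity
  linarith

section fam

variable {k₀ N : ℕ} {R S : ℤ} {ι : ℕ → Type*} [∀ k, Fintype (ι k)] [∀ k, DecidableEq (ι k)]
  {μ : ℝ} {J : ℕ} {τ β : ℝ} {Sr Θ G E M : ∀ k, ℕ → ℤ → ℤ → Matrix (ι k) (ι k) ℝ}
  {rr : ∀ k, Matrix (ι (k + 1)) (ι (k + 1)) ℝ} {p : ℕ → ℕ → ℤ → ℤ → ℝ} {H ZM ZE ZQ Qm : ℕ → ℝ}

theorem WFamL.pX (h : WFamL k₀ N R S μ J τ β Sr Θ G E M rr p H ZM ZE ZQ Qm) (k a : ℕ) (n m : ℤ) :
    (Sr k a n m * G k a n m * Sr k a n m).PosSemidef :=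
  psd_conj_symm (h.pG k a n m) (psd_isSymm (h.pS k a n m))

theorem WFamL.Ow_ge (h : WFamL k₀ N R S μ J τ β Sr Θ G E M rr p H ZM ZE ZQ Qm) (r : ℕ) :
    H r ≤ OwL J H ZM ZE Qm r := by
  have h1 := h.nH r
  have h2 := h.nZM r
  have h3 := h.nZE r
  have h4 := h.nQm r
  have hJ : (0 : ℝ) ≤ J := Nat.cast_nonneg J
  rw [OwL_eq]
  have a1 : 0 ≤ (J : ℝ) * H r := by positivity
  have a2 : 0 ≤ 32 * ((J : ℝ) + 1) ^ 3 * ZM r := by positivity
  have a3 : 0 ≤ (1 / 2) * ((J : ℝ) + 1) * ZE r := by positivity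
  linarith

theorem WFamL.Ow0 (h : WFamL k₀ N R S μ J τ β Sr Θ G E M rr p H ZM ZE ZQ Qm) (r : ℕ) :
    0 ≤ OwL J H ZM ZE Qm r := (h.nH r).trans (h.Ow_ge r)

theorem eM_nonneg {κ : Type*} [Fintype κ] [DecidableEq κ] {S M G₀ G₁ : Matrix κ κ ℝ}
    (hS : Sᵀ = S) (hM : Mᵀ = M) (g0 : G₀.PosSemidef) (g1 : G₁.PosSemidef) :
    0 ≤ eM S M G₀ G₁ := by
  have hSi : (S⁻¹)ᵀ = S⁻¹ := by rw [transpose_nonsing_inv, hS]
  have hp : (M * (S⁻¹ * S⁻¹) * M).PosSemidef := psd_conj_symm (psd_sq hSi) hM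
  unfold eM
  exact add_nonneg (trace_mul_nonneg hp g0) (trace_mul_nonneg hp g1)

theorem eE_nonneg {κ : Type*} [Fintype κ] [DecidableEq κ] {E G₀ G₁ : Matrix κ κ ℝ}
    (hE : E.PosSemidef) (g0 : G₀.PosSemidef) (g1 : G₁.PosSemidef) : 0 ≤ eE E G₀ G₁ := by
  unfold eE
  exact add_nonneg (trace_mul_nonneg hE g0) (trace_mul_nonneg hE g1)

/-- **The diagonals**: defects and energy up to any hub scale. -/
theorem WFamL.key (h : WFamL k₀ N R S μ J τ β Sr Θ G E M rr p H ZM ZE ZQ Qm) (r : ℕ) {K : ℕ}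
    (hK : k₀ ≤ K) (hKr : K + r ≤ N) :
    ∑ k ∈ Ico k₀ K, (1 / 4) * bsum N R S k (k + r + 1) (fun n m =>
        SD μ J (Sr k (k + r + 1) n m * G k (k + r) (2 * n) m * Sr k (k + r + 1) n m)
          (Sr k (k + r + 1) n m * G k (k + r) (2 * n + 1) m * Sr k (k + r + 1) n m))
      + ∑ k ∈ Ico k₀ K, bsum N R S (k + 1) (k + 1 + r) (fun n m => (1 / 2) * SC μ J (rr k)
        (Sr (k + 1) (k + 1 + r) n m * G (k + 1) (k + 1 + r) n m * Sr (k + 1) (k + 1 + r) n m))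
      + bsum N R S K (K + r) (fun n m =>
        SG μ J (Sr K (K + r) n m * G K (K + r) n m * Sr K (K + r) n m))
      ≤ OwL J H ZM ZE Qm r := by
  have hμ := h.hμ
  have hJ : (0 : ℝ) ≤ J := Nat.cast_nonneg J
  have key := diag (k₀ := k₀) (N := N)
      (E := fun k a => bsum N R S k a fun n m => SG μ J (Sr k a n m * G k a n m * Sr k a n m))
      (G := fun k a => (1 / 4) * bsum N R S k (a + 1) fun n m =>
        SD μ J (Sr k (a + 1) n m * G k a (2 * n) m * Sr k (a + 1) n m)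
          (Sr k (a + 1) n m * G k a (2 * n + 1) m * Sr k (a + 1) n m))
      (G' := fun k a => bsum N R S (k + 1) a fun n m => (1 / 2) * SC μ J (rr k)
        (Sr (k + 1) a n m * G (k + 1) a n m * Sr (k + 1) a n m))
      (q := fun k a => bsum N R S k (a + 1) fun n m =>
        32 * ((J : ℝ) + 1) ^ 3 * eM (Sr k (a + 1) n m) (M k a n m) (G k a (2 * n) m)
          (G k a (2 * n + 1) m)
        + (1 / 2) * ((J : ℝ) + 1) * eE (E k a n m) (G k a (2 * n) m) (G k a (2 * n + 1) m))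
      (p := fun k a => bsum N R S (k + 1) a fun n m => p k a n m)
      (fun k a h1 h2 h3 => by
        rw [← bsum_outer h3 R S (fun n m => SG μ J (Sr k a n m * G k a n m * Sr k a n m)),
          ← bsum_smul, ← bsum_add, ← bsum_add]
        refine bsum_mono fun n m => ?_
        have e := own_outer (h.pS k (a + 1) n m) (h.uS k (a + 1) n m) (h.pS k a (2 * n) m)
          (h.pS k a (2 * n + 1) m) (h.sM k a n m) (h.pE k a n m) (h.S0 k a n m h1 h2 h3)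
          (h.S1 k a n m h1 h2 h3) (h.pG k a (2 * n) m) (h.pG k a (2 * n + 1) m) hμ J
          (h.cap0 k a n m h1 h2 h3) (h.cap1 k a n m h1 h2 h3)
        rw [← h.par k a n m h1 h2 h3] at e
        unfold eM eE
        linarith)
      (fun k a h1 h2 h3 => by
        rw [← bsum_mid (by omega : k < N) R S
          (fun n m => SG μ J (Sr k a n m * G k a n m * Sr k a n m)), ← bsum_add, ← bsum_add]
        refine bsum_mono fun n m => ?_
        have e1 := own_mid (h.pX (k + 1) a n m) (h.hr k) (h.hr2 k) hμ J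
        have e2 := h.mid k a n m h1 h2 h3
        linarith)
      r K hK hKr
  have e2 : (bsum N R S k₀ (k₀ + r) fun n m =>
      SG μ J (Sr k₀ (k₀ + r) n m * G k₀ (k₀ + r) n m * Sr k₀ (k₀ + r) n m))
      ≤ ((J : ℝ) + 1) * H r := by
    have h1 := h.hH r (by omega)
    have h2 : (bsum N R S k₀ (k₀ + r) fun n m =>
        SG μ J (Sr k₀ (k₀ + r) n m * G k₀ (k₀ + r) n m * Sr k₀ (k₀ + r) n m))
        ≤ bsum N R S k₀ (k₀ + r) fun n m => ((J : ℝ) + 1)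
          * (Sr k₀ (k₀ + r) n m * Sr k₀ (k₀ + r) n m * G k₀ (k₀ + r) n m).trace := by
      refine bsum_mono fun n m => ?_
      have e := SG_le (h.pX k₀ (k₀ + r) n m) hμ J
      have e' : (Sr k₀ (k₀ + r) n m * G k₀ (k₀ + r) n m * Sr k₀ (k₀ + r) n m).trace
          = (Sr k₀ (k₀ + r) n m * Sr k₀ (k₀ + r) n m * G k₀ (k₀ + r) n m).trace := by
        rw [Matrix.mul_assoc, trace_mul_comm, Matrix.mul_assoc, trace_mul_comm]
      rwa [e'] at e
    rw [bsum_smul] at h2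
    exact h2.trans (mul_le_mul_of_nonneg_left h1 (by positivity))
  have hsub : Ico k₀ K ⊆ Ico k₀ (N - r) := by
    intro k hk
    rw [mem_Ico] at hk ⊢
    omega
  have e3 : ∑ k ∈ Ico k₀ K, bsum N R S (k + 1) (k + 1 + r) (fun n m => p k (k + 1 + r) n m)
      ≤ Qm r :=
    (sum_le_sum_of_subset_of_nonneg hsub fun k _ _ => bsum_nonneg fun n m =>
      h.np _ _ _ _).trans (h.hQm r)
  have e5 : ∑ k ∈ Ico k₀ K, bsum N R S k (k + r + 1) (fun n m =>
      eM (Sr k (k + r + 1) n m) (M k (k + r) n m) (G k (k + r) (2 * n) m)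
        (G k (k + r) (2 * n + 1) m)) ≤ ZM r :=
    (sum_le_sum_of_subset_of_nonneg hsub fun k _ _ => bsum_nonneg fun n m =>
      eM_nonneg (psd_isSymm (h.pS _ _ _ _)) (h.sM _ _ _ _) (h.pG _ _ _ _)
        (h.pG _ _ _ _)).trans (h.hZM r)
  have e6 : ∑ k ∈ Ico k₀ K, bsum N R S k (k + r + 1) (fun n m =>
      eE (E k (k + r) n m) (G k (k + r) (2 * n) m) (G k (k + r) (2 * n + 1) m)) ≤ ZE r :=
    (sum_le_sum_of_subset_of_nonneg hsub fun k _ _ => bsum_nonneg fun n m =>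
      eE_nonneg (h.pE _ _ _ _) (h.pG _ _ _ _) (h.pG _ _ _ _)).trans (h.hZE r)
  have e4 : ∑ k ∈ Ico k₀ K, bsum N R S k (k + r + 1) (fun n m =>
      32 * ((J : ℝ) + 1) ^ 3 * eM (Sr k (k + r + 1) n m) (M k (k + r) n m)
        (G k (k + r) (2 * n) m) (G k (k + r) (2 * n + 1) m)
      + (1 / 2) * ((J : ℝ) + 1) * eE (E k (k + r) n m) (G k (k + r) (2 * n) m)
        (G k (k + r) (2 * n + 1) m))
      ≤ 32 * ((J : ℝ) + 1) ^ 3 * ZM r + (1 / 2) * ((J : ℝ) + 1) * ZE r := by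
    simp only [bsum_add, bsum_smul, sum_add_distrib, ← mul_sum]
    exact add_le_add (mul_le_mul_of_nonneg_left e5 (by positivity))
      (mul_le_mul_of_nonneg_left e6 (by positivity))
  rw [OwL_eq]
  linarith

/-- **Own defects of the outer and of the middle steps, every diagonal.** -/
theorem WFamL.own_diag (h : WFamL k₀ N R S μ J τ β Sr Θ G E M rr p H ZM ZE ZQ Qm) (r : ℕ) :
    ∑ k ∈ Ico k₀ (N - r), (1 / 4) * bsum N R S k (k + r + 1) (fun n m =>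
        SD μ J (Sr k (k + r + 1) n m * G k (k + r) (2 * n) m * Sr k (k + r + 1) n m)
          (Sr k (k + r + 1) n m * G k (k + r) (2 * n + 1) m * Sr k (k + r + 1) n m))
      + ∑ k ∈ Ico k₀ (N - r), bsum N R S (k + 1) (k + 1 + r) (fun n m => (1 / 2) * SC μ J (rr k)
        (Sr (k + 1) (k + 1 + r) n m * G (k + 1) (k + 1 + r) n m * Sr (k + 1) (k + 1 + r) n m))
      ≤ OwL J H ZM ZE Qm r := by
  by_cases hr : k₀ + r ≤ N
  · have k1 := h.key r (K := N - r) (by omega) (by omega)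
    have e1 : 0 ≤ bsum N R S (N - r) (N - r + r) fun n m =>
        SG μ J (Sr (N - r) (N - r + r) n m * G (N - r) (N - r + r) n m
          * Sr (N - r) (N - r + r) n m) :=
      bsum_nonneg fun n m => SG_nonneg (h.pX _ _ _ _) h.hμ J
    linarith
  · rw [Ico_eq_empty (by omega), sum_empty, sum_empty, add_zero]
    exact h.Ow0 r

/-- **The own energy at every scale.** -/
theorem WFamL.en (h : WFamL k₀ N R S μ J τ β Sr Θ G E M rr p H ZM ZE ZQ Qm) {k r : ℕ}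
    (h1 : k₀ ≤ k) (h3 : k + r ≤ N) :
    bsum N R S k (k + r) (fun n m =>
        SG μ J (Sr k (k + r) n m * G k (k + r) n m * Sr k (k + r) n m))
      ≤ OwL J H ZM ZE Qm r := by
  have k1 := h.key r (K := k) h1 h3
  have e1 : 0 ≤ ∑ k ∈ Ico k₀ k, (1 / 4) * bsum N R S k (k + r + 1) (fun n m =>
        SD μ J (Sr k (k + r + 1) n m * G k (k + r) (2 * n) m * Sr k (k + r + 1) n m)
          (Sr k (k + r + 1) n m * G k (k + r) (2 * n + 1) m * Sr k (k + r + 1) n m)) :=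
    sum_nonneg fun k _ => mul_nonneg (by norm_num) (bsum_nonneg fun n m =>
      SD_nonneg (psd_conj_symm (h.pG _ _ _ _) (psd_isSymm (h.pS _ _ _ _)))
        (psd_conj_symm (h.pG _ _ _ _) (psd_isSymm (h.pS _ _ _ _))) h.hμ J)
  have e2 : 0 ≤ ∑ k ∈ Ico k₀ k, bsum N R S (k + 1) (k + 1 + r) (fun n m =>
      (1 / 2) * SC μ J (rr k)
        (Sr (k + 1) (k + 1 + r) n m * G (k + 1) (k + 1 + r) n m * Sr (k + 1) (k + 1 + r) n m)) :=
    sum_nonneg fun k _ => bsum_nonneg fun n m => mul_nonneg (by norm_num)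
      (SC_nonneg (h.pX _ _ _ _) (h.hr k) h.hμ J)
  linarith

theorem WFamL.SD_diag (h : WFamL k₀ N R S μ J τ β Sr Θ G E M rr p H ZM ZE ZQ Qm) (r : ℕ) :
    ∑ k ∈ Ico k₀ (N - r), bsum N R S k (k + r + 1) (fun n m =>
        SD μ J (Sr k (k + r + 1) n m * G k (k + r) (2 * n) m * Sr k (k + r + 1) n m)
          (Sr k (k + r + 1) n m * G k (k + r) (2 * n + 1) m * Sr k (k + r + 1) n m))
      ≤ 4 * OwL J H ZM ZE Qm r := by
  have h1 := h.own_diag r
  have h2 : 0 ≤ ∑ k ∈ Ico k₀ (N - r), bsum N R S (k + 1) (k + 1 + r) (fun n m =>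
      (1 / 2) * SC μ J (rr k)
        (Sr (k + 1) (k + 1 + r) n m * G (k + 1) (k + 1 + r) n m * Sr (k + 1) (k + 1 + r) n m)) :=
    sum_nonneg fun k _ => bsum_nonneg fun n m => mul_nonneg (by norm_num)
      (SC_nonneg (h.pX _ _ _ _) (h.hr k) h.hμ J)
  rw [← mul_sum] at h1
  linarith

theorem WFamL.SC_diag (h : WFamL k₀ N R S μ J τ β Sr Θ G E M rr p H ZM ZE ZQ Qm) (r : ℕ) :
    ∑ k ∈ Ico k₀ (N - r), bsum N R S (k + 1) (k + 1 + r) (fun n m => SC μ J (rr k)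
        (Sr (k + 1) (k + 1 + r) n m * G (k + 1) (k + 1 + r) n m * Sr (k + 1) (k + 1 + r) n m))
      ≤ 2 * OwL J H ZM ZE Qm r := by
  have h1 := h.own_diag r
  have h2 : 0 ≤ ∑ k ∈ Ico k₀ (N - r), (1 / 4) * bsum N R S k (k + r + 1) (fun n m =>
        SD μ J (Sr k (k + r + 1) n m * G k (k + r) (2 * n) m * Sr k (k + r + 1) n m)
          (Sr k (k + r + 1) n m * G k (k + r) (2 * n + 1) m * Sr k (k + r + 1) n m)) :=
    sum_nonneg fun k _ => mul_nonneg (by norm_num) (bsum_nonneg fun n m =>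
      SD_nonneg (psd_conj_symm (h.pG _ _ _ _) (psd_isSymm (h.pS _ _ _ _)))
        (psd_conj_symm (h.pG _ _ _ _) (psd_isSymm (h.pS _ _ _ _))) h.hμ J)
  simp only [bsum_smul, ← mul_sum] at h1 h2
  linarith

/-- the own number of the middle steps -/
theorem WFamL.OM (h : WFamL k₀ N R S μ J τ β Sr Θ G E M rr p H ZM ZE ZQ Qm) {j : ℕ} (hj : j ≤ J)
    {s : ℝ} (hs : s = (μ / 4 ^ j)⁻¹) :
    ∑ k ∈ Ico k₀ N, (4 : ℝ) ^ (k + 1) * ∑ m ∈ iv (N - (k + 1)) S, ∑ n ∈ iv (N - (k + 1)) R,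
      gp s (rr k) (Sr (k + 1) (k + 1) n m * G (k + 1) (k + 1) n m * Sr (k + 1) (k + 1) n m)
      ≤ 2 * s * OwL J H ZM ZE Qm 0 := by
  have h4 : 0 < μ / 4 ^ j := div_pos h.hμ (by positivity)
  have hs0 : 0 < s := by rw [hs]; exact inv_pos.2 h4
  have h1 := h.SC_diag 0
  rw [Nat.sub_zero] at h1
  have e : ∀ k, (4 : ℝ) ^ (k + 1) * ∑ m ∈ iv (N - (k + 1)) S, ∑ n ∈ iv (N - (k + 1)) R,
      gp s (rr k) (Sr (k + 1) (k + 1) n m * G (k + 1) (k + 1) n m * Sr (k + 1) (k + 1) n m)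
      = bsum N R S (k + 1) (k + 1) fun n m =>
        gp s (rr k) (Sr (k + 1) (k + 1) n m * G (k + 1) (k + 1) n m * Sr (k + 1) (k + 1) n m) := by
    intro k
    unfold bsum
    rw [← mul_pow]
    norm_num
  simp only [e]
  have h2 : ∑ k ∈ Ico k₀ N, (bsum N R S (k + 1) (k + 1) fun n m =>
        gp s (rr k) (Sr (k + 1) (k + 1) n m * G (k + 1) (k + 1) n m * Sr (k + 1) (k + 1) n m))
      ≤ ∑ k ∈ Ico k₀ N, bsum N R S (k + 1) (k + 1 + 0) fun n m => s * SC μ J (rr k)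
        (Sr (k + 1) (k + 1 + 0) n m * G (k + 1) (k + 1 + 0) n m * Sr (k + 1) (k + 1 + 0) n m) :=
    sum_le_sum fun k _ => bsum_mono fun n m => gp_le (h.pX _ _ _ _) (h.hr k) h.hμ hj hs
  simp only [bsum_smul, ← mul_sum] at h2
  have h3 := mul_le_mul_of_nonneg_left h1 hs0.le
  linarith

/-- the own number of the outer steps -/
theorem WFamL.OO (h : WFamL k₀ N R S μ J τ β Sr Θ G E M rr p H ZM ZE ZQ Qm) {j : ℕ} (hj : j ≤ J)
    {s : ℝ} (hs : s = (μ / 4 ^ j)⁻¹) :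
    ∑ k ∈ Ico k₀ N, (4 : ℝ) ^ (k + 1) * ∑ m ∈ iv (N - (k + 1)) S, ∑ n ∈ iv (N - (k + 1)) R,
      mh (fun i => dls s (Sr k (k + 1) n i * G k k (2 * n) i * Sr k (k + 1) n i)
        (Sr k (k + 1) n i * G k k (2 * n + 1) i * Sr k (k + 1) n i)) m
      ≤ 4 * s * OwL J H ZM ZE Qm 0 := by
  have h4 : 0 < μ / 4 ^ j := div_pos h.hμ (by positivity)
  have hs0 : 0 < s := by rw [hs]; exact inv_pos.2 h4
  have h1 := h.SD_diag 0
  rw [Nat.sub_zero] at h1
  have e : ∀ k ∈ Ico k₀ N, (4 : ℝ) ^ (k + 1) * ∑ m ∈ iv (N - (k + 1)) S,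
      ∑ n ∈ iv (N - (k + 1)) R,
      mh (fun i => dls s (Sr k (k + 1) n i * G k k (2 * n) i * Sr k (k + 1) n i)
        (Sr k (k + 1) n i * G k k (2 * n + 1) i * Sr k (k + 1) n i)) m
      = bsum N R S k (k + 1) fun n m =>
        dls s (Sr k (k + 1) n m * G k k (2 * n) m * Sr k (k + 1) n m)
        (Sr k (k + 1) n m * G k k (2 * n + 1) m * Sr k (k + 1) n m) := by
    intro k hk
    rw [← bsum_mid (mem_Ico.1 hk).2 R S (fun n m =>
        dls s (Sr k (k + 1) n m * G k k (2 * n) m * Sr k (k + 1) n m)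
        (Sr k (k + 1) n m * G k k (2 * n + 1) m * Sr k (k + 1) n m))]
    unfold bsum mh
    rw [← mul_pow]
    norm_num
  rw [sum_congr rfl e]
  have h2 : ∑ k ∈ Ico k₀ N, (bsum N R S k (k + 1) fun n m =>
        dls s (Sr k (k + 1) n m * G k k (2 * n) m * Sr k (k + 1) n m)
        (Sr k (k + 1) n m * G k k (2 * n + 1) m * Sr k (k + 1) n m))
      ≤ ∑ k ∈ Ico k₀ N, bsum N R S k (k + 0 + 1) fun n m => s *
        SD μ J (Sr k (k + 0 + 1) n m * G k (k + 0) (2 * n) m * Sr k (k + 0 + 1) n m)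
          (Sr k (k + 0 + 1) n m * G k (k + 0) (2 * n + 1) m * Sr k (k + 0 + 1) n m) :=
    sum_le_sum fun k _ => bsum_mono fun n m => dls_le
      (psd_conj_symm (h.pG _ _ _ _) (psd_isSymm (h.pS _ _ _ _)))
      (psd_conj_symm (h.pG _ _ _ _) (psd_isSymm (h.pS _ _ _ _))) h.hμ hj hs
  simp only [bsum_smul, ← mul_sum] at h2
  have h3 := mul_le_mul_of_nonneg_left h1 hs0.le
  linarith

theorem WFamL.sV (h : WFamL k₀ N R S μ J τ β Sr Θ G E M rr p H ZM ZE ZQ Qm) {s : ℝ} (hs : 0 < s)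
    (k a : ℕ) (n m : ℤ) : (Vf s Sr Θ G k a n m).PosSemidef :=
  pg_psd hs (h.sΘ k a n m) (psd_sq (psd_isSymm (h.pS k a n m))) (h.pG k a n m)

/-- **The plane energy of the second slot.** -/
theorem WFamL.TV_pg (h : WFamL k₀ N R S μ J τ β Sr Θ G E M rr p H ZM ZE ZQ Qm) {j : ℕ}
    (hj : j ≤ J) {s : ℝ} (hs : s = (μ / 4 ^ j)⁻¹) :
    TV k₀ N R S (Vf s Sr Θ G) ≤ 368 * τ ^ 2 * s * wS N (OwL J H ZM ZE Qm)
      + 368 * (τ * s) * (2 + τ * β⁻¹) * wS N ZQ := by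
  have h4 : 0 < μ / 4 ^ j := div_pos h.hμ (by positivity)
  have hs0 : 0 < s := by rw [hs]; exact inv_pos.2 h4
  have hτ := h.hτ
  have hβ := h.hβ
  have hc : 0 ≤ (τ * s) * (2 + τ * β⁻¹) := by positivity
  have hY0 : ∀ r, 0 ≤ τ ^ 2 * s * OwL J H ZM ZE Qm r + (τ * s) * (2 + τ * β⁻¹) * ZQ r := by
    intro r
    have a := h.Ow0 r
    have b := h.nZQ r
    positivity
  have key := TV_diag h.hkN (V := Vf s Sr Θ G) (R := R) (S := S) (A := 4) (B := 16)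
    (X := fun r => τ ^ 2 * s * OwL J H ZM ZE Qm r + (τ * s) * (2 + τ * β⁻¹) * ZQ r)
    (by norm_num) (by norm_num) hY0
    (fun k r h1 h3 => by
      have e1 : EW N R S k (Vf s Sr Θ G k) (k + r)
          = bsum N R S k (k + r) fun n m => H389.sq (Vf s Sr Θ G k (k + r) n m) := rfl
      rw [e1]
      have e2 : (bsum N R S k (k + r) fun n m => H389.sq (Vf s Sr Θ G k (k + r) n m))
          ≤ bsum N R S k (k + r) fun n m => τ ^ 2 * (4 * s) *
            SG μ J (Sr k (k + r) n m * G k (k + r) n m * Sr k (k + r) n m) := by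
        refine bsum_mono fun n m => ?_
        have hX := h.pX k (k + r) n m
        have hP : (phs s (Sr k (k + r) n m * G k (k + r) n m * Sr k (k + r) n m)).PosSemidef :=
          (phi_psd (hX.smul (α := ℝ) (inv_pos.2 hs0).le)).smul hs0.le
        have f1 : H389.sq (Vf s Sr Θ G k (k + r) n m) ≤ τ ^ 2 *
            H389.sq (phs s (Sr k (k + r) n m * G k (k + r) n m * Sr k (k + r) n m)) := by
          unfold Vf
          rw [pg_root hs0 (psd_isSymm (h.pS k (k + r) n m)) (h.uS k (k + r) n m)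
            (h.pG k (k + r) n m)]
          exact sq_comp hτ (h.sΘ k (k + r) n m) (psd_isSymm (h.pS k (k + r) n m))
            (h.uS k (k + r) n m) (h.tΘ k (k + r) n m) hP
        have f2 := H125.S0.sq_phs_le_SG hX h.hμ hj
        rw [← hs] at f2
        have f3 := mul_le_mul_of_nonneg_left f2 (sq_nonneg τ)
        linarith
      rw [bsum_smul] at e2
      have e3 := mul_le_mul_of_nonneg_left (h.en h1 h3)
        (by positivity : (0 : ℝ) ≤ τ ^ 2 * (4 * s))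
      have e4 : 0 ≤ (τ * s) * (2 + τ * β⁻¹) * ZQ r := mul_nonneg hc (h.nZQ r)
      linarith)
    (fun r => by
      have e1 := h.SD_diag r
      have e2 := h.hZQ r
      have hlev : ∀ k ∈ Ico k₀ (N - r),
          (2 : ℝ) ^ k * ∑ m ∈ iv (N - k) S, lvV N R (fun a n => Vf s Sr Θ G k a n m) (k + r)
          ≤ (1 / 2) * bsum N R S k (k + r + 1) (fun n m => 8 * τ ^ 2 * (s * SD μ J
              (Sr k (k + r + 1) n m * G k (k + r) (2 * n) m * Sr k (k + r + 1) n m)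
              (Sr k (k + r + 1) n m * G k (k + r) (2 * n + 1) m * Sr k (k + r + 1) n m))
            + 12 * (τ * s) * (2 + τ * β⁻¹) * eQ (E k (k + r) n m) (M k (k + r) n m)
              (G k (k + r) (2 * n) m) (G k (k + r) (2 * n + 1) m)) := by
        intro k hk
        have hk' := mem_Ico.1 hk
        have h1 : k₀ ≤ k := hk'.1
        have h2 : k ≤ k + r := by omega
        have h3 : k + r < N := by omega
        have g1 : (2 : ℝ) ^ k * ∑ m ∈ iv (N - k) S,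
              lvV N R (fun a n => Vf s Sr Θ G k a n m) (k + r)
            = (1 / 2) * bsum N R S k (k + r + 1) fun n m =>
              (H389.sq (Vf s Sr Θ G k (k + r) (2 * n) m - Vf s Sr Θ G k (k + r + 1) n m)
                + H389.sq (Vf s Sr Θ G k (k + r) (2 * n + 1) m
                  - Vf s Sr Θ G k (k + r + 1) n m)) := by
          unfold lvV bsum
          rw [← mul_sum, pow_succ]
          ring
        rw [g1]
        refine mul_le_mul_of_nonneg_left (bsum_mono fun n m => ?_) (by norm_num)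
        have e := H784.pg_step' hs0 hβ hτ (h.sΘ k (k + r + 1) n m) (h.pS k (k + r + 1) n m)
          (h.sM k (k + r) n m) (psd_isSymm (h.pE k (k + r) n m)) (h.bS k (k + r + 1) n m)
          (h.tΘ k (k + r + 1) n m)
          (h.pG k (k + r) (2 * n) m) (h.pG k (k + r) (2 * n + 1) m)
          (by rw [← h.S0 k (k + r) n m h1 h2 h3]; exact h.bS k (k + r) (2 * n) m)
          (by rw [← h.S1 k (k + r) n m h1 h2 h3]; exact h.bS k (k + r) (2 * n + 1) m)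
          (by rw [← h.S0 k (k + r) n m h1 h2 h3, ← h.Θ0 k (k + r) n m h1 h2 h3]
              exact h.tΘ k (k + r) (2 * n) m)
          (by rw [← h.S1 k (k + r) n m h1 h2 h3, ← h.Θ1 k (k + r) n m h1 h2 h3]
              exact h.tΘ k (k + r) (2 * n + 1) m)
        rw [← h.par k (k + r) n m h1 h2 h3, ← h.S0 k (k + r) n m h1 h2 h3,
          ← h.Θ0 k (k + r) n m h1 h2 h3, ← h.S1 k (k + r) n m h1 h2 h3,
          ← h.Θ1 k (k + r) n m h1 h2 h3] at e
        have f := mul_le_mul_of_nonneg_left (dls_le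
          (psd_conj_symm (h.pG k (k + r) (2 * n) m) (psd_isSymm (h.pS k (k + r + 1) n m)))
          (psd_conj_symm (h.pG k (k + r) (2 * n + 1) m) (psd_isSymm (h.pS k (k + r + 1) n m)))
          h.hμ hj hs) (by positivity : (0 : ℝ) ≤ 8 * τ ^ 2)
        exact e.trans (add_le_add f le_rfl)
      refine (sum_le_sum hlev).trans ?_
      have e3 : ∑ k ∈ Ico k₀ (N - r), (1 / 2) * bsum N R S k (k + r + 1) (fun n m =>
            8 * τ ^ 2 * (s * SD μ J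
              (Sr k (k + r + 1) n m * G k (k + r) (2 * n) m * Sr k (k + r + 1) n m)
              (Sr k (k + r + 1) n m * G k (k + r) (2 * n + 1) m * Sr k (k + r + 1) n m))
            + 12 * (τ * s) * (2 + τ * β⁻¹) * eQ (E k (k + r) n m) (M k (k + r) n m)
              (G k (k + r) (2 * n) m) (G k (k + r) (2 * n + 1) m))
          = (1 / 2) * (8 * τ ^ 2 * (s * ∑ k ∈ Ico k₀ (N - r), bsum N R S k (k + r + 1)
              (fun n m => SD μ J
              (Sr k (k + r + 1) n m * G k (k + r) (2 * n) m * Sr k (k + r + 1) n m)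
              (Sr k (k + r + 1) n m * G k (k + r) (2 * n + 1) m * Sr k (k + r + 1) n m)))
            + 12 * (τ * s) * (2 + τ * β⁻¹) * ∑ k ∈ Ico k₀ (N - r), bsum N R S k (k + r + 1)
              (fun n m => eQ (E k (k + r) n m) (M k (k + r) n m)
                (G k (k + r) (2 * n) m) (G k (k + r) (2 * n + 1) m))) := by
        simp only [bsum_add, bsum_smul, sum_add_distrib, ← mul_sum]
      rw [e3]
      have f1 := mul_le_mul_of_nonneg_left (mul_le_mul_of_nonneg_left e1 hs0.le)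
        (by positivity : (0 : ℝ) ≤ 8 * τ ^ 2)
      have f2 := mul_le_mul_of_nonneg_left e2
        (by positivity : (0 : ℝ) ≤ 12 * (τ * s) * (2 + τ * β⁻¹))
      have f3 : 0 ≤ (τ * s) * (2 + τ * β⁻¹) * ZQ r := mul_nonneg hc (h.nZQ r)
      linarith)
  refine key.trans (le_of_eq ?_)
  rw [wS_add, wS_smul, wS_smul]
  ring

end fam

end

end Vale.Agent.P141.H912
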