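import Vale.Agent.P141.H457.NumBC
import Vale.Agent.P141.H581.TVCP
import Vale.Agent.P141.H636.TopBC
import Vale.Agent.P141.H736.LbcX
import Vale.Agent.P141.H912.TVpgL

/-!
# P141, line (A), TI, the pair `(B~, C~)` at one `x₀`: the composition
-/

set_option linter.unusedSectionVars false

namespace Vale.Agent.P141.H912.FixBC

open Finset Matrix
open Vale.Agent.P075 (Ix val bd rad phi exists_sq psd_isSymm psd_conj_symm trace_mul_nonneg)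
open Vale.Agent.P141.PL (iv ix mem_iv)
open Vale.Agent.P141.PL.H103 Vale.Agent.P141.H103
open Vale.Agent.P141.H585.PairCh (phs dls)
open Vale.Agent.P141.H585.PairO (mh gp)
open Vale.Agent.P141.H419.PairB (WPair mvM mvD gnV)
open Vale.Agent.P141.H389 (mn TV)
open Vale.Agent.P141.H784 (av four_av)
open Vale.Agent.P141.H581.TVCP (mB TV_CP)
open Vale.Agent.P141.H736 (wE X_le)
open Vale.Agent.P141.H874 Vale.Agent.P141.H457

noncomputable section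

variable {κ : Type*} [Fintype κ] [DecidableEq κ]

variable {be : ℝ} {T e d : ℕ → ℤ → ℤ → Matrix κ κ ℝ}

open scoped Classical in
/-- **The composition at one `x₀`.** -/
theorem fix_x0 (hb : 0 < be) {s q τ : ℝ} (hs : 0 < s) (hq0 : 0 ≤ q) (hτ0 : 0 ≤ τ) (hτ2 : τ ≤ 2)
    (hT : H419.Wt T e d) (hTτ : ∀ k x m, (τ • (1 : Matrix κ κ ℝ) - T k x m).PosSemidef)
    {N : ℕ} {b c : ℕ → ℤ → ℤ → κ → ℝ} {Pb Pc : ℕ → ℤ → ℤ → Prop}
    (hPb : ∀ k < N, ∀ w m, ¬ Pb k w m → ∀ x ∈ iv k m, b (k + 1) x w = b k x w)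
    (hPc : ∀ k < N, ∀ w m, ¬ Pc k w m → ∀ x ∈ iv k m, c (k + 1) x w = c k x w)
    (cap : ∀ k ≤ N, ∀ n m,
      (q • (1 : Matrix (Ix k × κ) (Ix k × κ) ℝ) - CP (b k) k k n m).PosSemidef)
    (cap1 : ∀ k < N, ∀ n m,
      (q • (1 : Matrix (Ix k × κ) (Ix k × κ) ℝ) - CP (b (k + 1)) k k n m).PosSemidef)
    {R₁ S₁ T₁ : ℤ} {cc : ℕ → ℤ} (hcc : PL.H588.Pl cc) {a E EB : ℝ} (ha : 308 ≤ a) (hE : 0 ≤ E)
    (hEB : 0 ≤ EB)
    -- the second slot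
    (hTV : TV 0 N T₁ S₁ (fun k a n m => PG be s T (c k) k a n m) ≤ a * (s * E))
    (hOM : ∑ k ∈ Ico 0 N, (4 : ℝ) ^ (k + 1) * ∑ m ∈ iv (N - (k + 1)) S₁,
      ∑ n ∈ iv (N - (k + 1)) T₁, gp s (sk (k + 1) κ) (SD be T (k + 1) (k + 1) n m *
        CP (c (k + 1)) (k + 1) (k + 1) n m * SD be T (k + 1) (k + 1) n m) ≤ a * (s * E))
    (hOO : ∑ k ∈ Ico 0 N, (4 : ℝ) ^ (k + 1) * ∑ m ∈ iv (N - (k + 1)) S₁,
      ∑ n ∈ iv (N - (k + 1)) T₁, mh (fun h => dls s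
        (SD be T k (k + 1) n h * CP (c (k + 1)) k k (2 * n) h * SD be T k (k + 1) n h)
        (SD be T k (k + 1) n h * CP (c (k + 1)) k k (2 * n + 1) h * SD be T k (k + 1) n h)) m
      ≤ a * (s * E))
    (hZM : 2 * ∑ k ∈ Ico 0 N, ∑ x ∈ iv N S₁, ∑ z ∈ iv N T₁,
      c (k + 1) x z ⬝ᵥ Fv be T d k (ix (k + 1) z) x *ᵥ c (k + 1) x z ≤ a * E)
    (hEM : 2 * ∑ k ∈ Ico 0 N, ∑ x ∈ iv N S₁, ∑ z ∈ iv N T₁,
      c (k + 1) x z ⬝ᵥ e k x (ix (k + 1) z) *ᵥ c (k + 1) x z ≤ a * E)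
    -- the first slot
    (hB0 : mB N R₁ S₁ (b 0) ≤ EB)
    (hB1 : ∑ k ∈ Ico 0 N, mB N R₁ S₁ (rs (Pb k) k (b (k + 1))) ≤ EB)
    (hZB : ∑ k ∈ Ico 0 N, GW N R₁ S₁ T₁ (k + 1) (cc (k + 1)) (fun n n' m =>
      av (k + 1) n m fun x y => b (k + 1) x y ⬝ᵥ Fv be T d k n' x *ᵥ b (k + 1) x y) ≤ a * EB)
    (hZE : ∑ k ∈ Ico 0 N, GW N R₁ S₁ T₁ (k + 1) (cc (k + 1)) (fun n n' m =>
      av (k + 1) n m fun x y => b (k + 1) x y ⬝ᵥ e k x n' *ᵥ b (k + 1) x y) ≤ a * EB)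
    -- the kills
    (hX : τ * (∑ k ∈ Ico 0 N, ∑ x ∈ iv N S₁, ∑ z ∈ iv N T₁,
          (if ∃ w, ix (k + 1) w = cc (k + 1) - ix (k + 1) x - ix (k + 1) z ∧ Pb k w (ix k x) then
            wE be T k (c (k + 1)) x z else 0)
        + ∑ k ∈ Ico 0 N, ∑ x ∈ iv N S₁, ∑ z ∈ iv N T₁,
          wE be T k (rs (Pc k) k (c (k + 1))) x z) ≤ a * E) :
    ∑ k ∈ Ico 0 N, GW N R₁ S₁ T₁ (k + 1) (cc (k + 1))
      (gnV (ι := fun k => Ix k × κ) (fun k a n m => CP (b k) k a n m)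
        (fun k a n m => PG be s T (c k) k a n m) (fun k => sk (k + 1) κ) k)
      ≤ 18 * a * (√(s * E * (q * EB)) + q * E) := by
  have ha0 : 0 ≤ a := by linarith
  have hW := wpair hb hs hq0 hτ0 hT hTτ hPb hPc (fun k hk => cap k hk.le) cap1 (cap N le_rfl)
  have hZM' : ∑ k ∈ Ico 0 N, (4 : ℝ) ^ (k + 1) * ∑ m ∈ iv (N - (k + 1)) S₁,
      ∑ n ∈ iv (N - (k + 1)) T₁, mh (fun h => mvM (ι := fun k => Ix k × κ)
        (fun k n h => SD be T k (k + 1) n h)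
      (fun k n h => TD d k k n h) (fun k n h => CP (c (k + 1)) k k (2 * n) h)
      (fun k n h => CP (c (k + 1)) k k (2 * n + 1) h) k n h) m ≤ a * E := by
    refine le_trans (le_of_eq ?_) hZM
    rw [mul_sum]
    refine Finset.sum_congr rfl fun k hk => ?_
    rw [Finset.mem_Ico] at hk
    simp only [zm_av hb hT.ps, ← Finset.mul_sum]
    rw [mul_left_comm]
    congr 1
    exact sum_av (N := N) (k := k + 1) (by omega) S₁ T₁
      (fun x z n => c (k + 1) x z ⬝ᵥ Fv be T d k n x *ᵥ c (k + 1) x z)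
  have hEM' : ∑ k ∈ Ico 0 N, (4 : ℝ) ^ (k + 1) * ∑ m ∈ iv (N - (k + 1)) S₁,
      ∑ n ∈ iv (N - (k + 1)) T₁, mh (fun h => mvD (ι := fun k => Ix k × κ)
        (fun k n h => TD e k k n h) (fun k n h => CP (c (k + 1)) k k (2 * n) h)
      (fun k n h => CP (c (k + 1)) k k (2 * n + 1) h) k n h) m ≤ a * E := by
    refine le_trans (le_of_eq ?_) hEM
    rw [mul_sum]
    refine Finset.sum_congr rfl fun k hk => ?_
    rw [Finset.mem_Ico] at hk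
    simp only [em_av, ← Finset.mul_sum]
    rw [mul_left_comm]
    congr 1
    exact sum_av (N := N) (k := k + 1) (by omega) S₁ T₁
      (fun x z n => c (k + 1) x z ⬝ᵥ e k x n *ᵥ c (k + 1) x z)
  have hZB' : ∑ k ∈ Ico 0 N, GW N R₁ S₁ T₁ (k + 1) (cc (k + 1)) (fun n n' m =>
      mh (fun h => (CP (b (k + 1)) k (k + 1) n h * (TD d k k n' h *
        ((SD be T k (k + 1) n' h)⁻¹ * (SD be T k (k + 1) n' h)⁻¹) * TD d k k n' h)).trace) m)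
      ≤ a * EB := by
    simp only [zb_av hb hT.ps]
    exact hZB
  have hZE' : ∑ k ∈ Ico 0 N, GW N R₁ S₁ T₁ (k + 1) (cc (k + 1)) (fun n n' m =>
      mh (fun h => (CP (b (k + 1)) k (k + 1) n h * TD e k k n' h).trace) m) ≤ a * EB := by
    simp only [eb_av]
    exact hZE
  have hX' : ∑ k ∈ Ico 0 N, GW N R₁ S₁ T₁ (k + 1) (cc (k + 1)) (fun n n' m =>
      mh (fun h => xk be s q τ T Pb Pc b c k n n' h) m) ≤ a * (q * E) := by
    refine (X_le hb hs hq0 hτ0 hT.ps hTτ cap1 R₁ S₁ T₁ cc).trans ?_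
    have := mul_le_mul_of_nonneg_left hX hq0
    linarith
  have hTP := TV_CP (N := N) (R := R₁) (S := S₁) hq0 hPb
    (fun k a' h1 h2 n m => by
      obtain ⟨l, rfl⟩ := Nat.exists_eq_add_of_le h1
      exact CP_cap_up (cap k (by omega)) l n m)
    (fun k a' h0 h1 h2 n m => by
      obtain ⟨l, rfl⟩ := Nat.exists_eq_add_of_le h1
      exact CP_cap_up (cap1 k h0) l n m) hB0 hB1
  have hTP' : TV 0 N R₁ S₁ (fun k a n m => CP (b k) k a n m) ≤ a * (q * EB) :=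
    hTP.trans (mul_le_mul_of_nonneg_right ha (mul_nonneg hq0 hEB))
  have hTP0 : 0 ≤ TV 0 N R₁ S₁ (fun k a n m => CP (b k) k a n m) :=
    H389.TV_nonneg fun k a n m => CP_symm _ _ _ _ _
  exact H636.Top.fix_end hs hq0 hτ0 hτ2 ha0 hE hEB hTP0
    (fun lam kap hl hk => hW.total hs hq0 hτ0 hl hk (Nat.zero_le N) hcc hOM hOO hZM' hEM' hZB'
      hZE' hX') hTP' hTV le_rfl le_rfl le_rfl le_rfl le_rfl le_rfl le_rfl

end

end Vale.Agent.P141.H912.FixBC
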