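import Mathlib

/-!
# P141, line (A), (TI), `LBCg`: the scalar end of the plane theorem with two parameters
-/

namespace Vale.Agent.P141.H912

/-- the optimum over one parameter, zero coefficients allowed -/
theorem inf_lin {G c a b : ℝ} (ha : 0 ≤ a) (hb : 0 ≤ b)
    (h : ∀ l : ℝ, 0 < l → G ≤ c + l * a + l⁻¹ * b) : G ≤ c + 2 * √(a * b) := by
  rcases eq_or_lt_of_le ha with ha0 | ha0
  · rw [← ha0, zero_mul, Real.sqrt_zero, mul_zero, add_zero]
    refine le_of_forall_pos_le_add fun ε hε => ?_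
    have hl : 0 < (b + 1) / ε := by positivity
    have h1 := h _ hl
    rw [← ha0, mul_zero, add_zero] at h1
    have h2 : ((b + 1) / ε)⁻¹ * b ≤ ε := by
      rw [inv_div, div_mul_eq_mul_div, div_le_iff₀ (by linarith)]
      nlinarith
    linarith
  rcases eq_or_lt_of_le hb with hb0 | hb0
  · rw [← hb0, mul_zero, Real.sqrt_zero, mul_zero, add_zero]
    refine le_of_forall_pos_le_add fun ε hε => ?_
    have h1 := h (ε / a) (by positivity)
    rw [← hb0, mul_zero, add_zero, div_mul_cancel₀ _ ha0.ne'] at h1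
    exact h1
  · have hl : 0 < √(b / a) := Real.sqrt_pos.2 (div_pos hb0 ha0)
    have h1 := h _ hl
    have hs : √(b / a) * √(b / a) = b / a := Real.mul_self_sqrt (div_pos hb0 ha0).le
    have e1 : √(b / a) * a = √(a * b) := by
      have e0 : a * b = (√(b / a) * a) ^ 2 := by
        calc a * b = b / a * (a * a) := by field_simp
          _ = (√(b / a) * √(b / a)) * (a * a) := by rw [hs]
          _ = (√(b / a) * a) ^ 2 := by ring
      rw [e0, Real.sqrt_sq (by positivity)]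
    have e2 : (√(b / a))⁻¹ * b = √(a * b) := by
      rw [← e1]
      rw [inv_mul_eq_iff_eq_mul₀ hl.ne']
      calc b = b / a * a := by field_simp
        _ = (√(b / a) * √(b / a)) * a := by rw [hs]
        _ = √(b / a) * (√(b / a) * a) := by ring
    rw [e1, e2] at h1
    linarith

/-- `√(x (y + z)) ≤ √(x y) + √(x z)` -/
theorem sqrt_add_split {x y z : ℝ} (hx : 0 ≤ x) (hy : 0 ≤ y) (hz : 0 ≤ z) :
    √(x * (y + z)) ≤ √(x * y) + √(x * z) := by
  rw [mul_add]
  have h1 := mul_nonneg hx hy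
  have h2 := mul_nonneg hx hz
  rw [Real.sqrt_le_iff]
  refine ⟨by positivity, ?_⟩
  have e1 := Real.sq_sqrt h1
  have e2 := Real.sq_sqrt h2
  have e3 : 0 ≤ √(x * y) * √(x * z) := by positivity
  nlinarith

/-- **The scalar end.** -/
theorem lamkap {G TP TV q τ s OM OO ZM EM ZB EB X E B c x y : ℝ} (hq : 0 ≤ q) (hτ : 0 ≤ τ)
    (hs : 0 < s) (hE : 0 ≤ E) (hB : 0 ≤ B) (hc : 0 ≤ c)
    (h : ∀ lam kap : ℝ, 0 < lam → 0 < kap →
      (1 / 2) * G ≤ √(TP * TV)
        + (q * τ * s⁻¹ * OM + q * τ * s⁻¹ * (1 + 2 * lam) * OO + s * lam⁻¹ * ZB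
          + q * τ * (2 * lam)⁻¹ * ZM + s * kap * EB + q * τ * (2 * kap)⁻¹ * EM + X))
    (hOM : OM ≤ 2 * s * E) (hOO : OO ≤ 4 * s * E) (hZM : ZM ≤ E) (hEM : EM ≤ E) (hZB : ZB ≤ B)
    (hEB : EB ≤ B) (_hTP0 : 0 ≤ TP) (hTP : TP ≤ 308 * (q * B))
    (hTV0 : 0 ≤ TV) (hTV : TV ≤ c * (τ * (1 + τ)) * (s * E))
    (hX : X ≤ x * (q * τ * E) + y * √(s * E * (q * B))) :
    G ≤ (52 * ((1 + c) * (1 + τ)) + 2 * y) * √(s * E * (q * B))
      + (2 * x + 20) * (q * τ * E) := by
  have hsE : 0 ≤ s * E := by positivity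
  have hqB : 0 ≤ q * B := by positivity
  set D : ℝ := s * E * (q * B) with hD
  have hD0 : 0 ≤ D := by positivity
  have hqt : 0 ≤ q * τ := by positivity
  -- the product
  have h1 : √(TP * TV) ≤ 18 * ((1 + c) * (1 + τ)) * √D := by
    have e : TP * TV ≤ (18 * ((1 + c) * (1 + τ))) ^ 2 * D := by
      calc TP * TV ≤ 308 * (q * B) * (c * (τ * (1 + τ)) * (s * E)) :=
            mul_le_mul hTP hTV hTV0 (by positivity)
        _ = 308 * (c * (τ * (1 + τ))) * D := by rw [hD]; ring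
        _ ≤ (18 * ((1 + c) * (1 + τ))) ^ 2 * D := by
            refine mul_le_mul_of_nonneg_right ?_ hD0
            have a1 : c ≤ (1 + c) ^ 2 := by nlinarith
            have a2 : τ * (1 + τ) ≤ (1 + τ) ^ 2 := by nlinarith
            have a3 : c * (τ * (1 + τ)) ≤ (1 + c) ^ 2 * (1 + τ) ^ 2 :=
              mul_le_mul a1 a2 (by positivity) (by positivity)
            have a4 : 0 ≤ (1 + c) ^ 2 * (1 + τ) ^ 2 := by positivity
            nlinarith
    calc √(TP * TV) ≤ √((18 * ((1 + c) * (1 + τ))) ^ 2 * D) := Real.sqrt_le_sqrt e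
      _ = 18 * ((1 + c) * (1 + τ)) * √D := by
          rw [Real.sqrt_mul (sq_nonneg _), Real.sqrt_sq (by positivity)]
  -- the parameters
  have h2 : ∀ lam kap : ℝ, 0 < lam → 0 < kap → (1 / 2) * G ≤ √(TP * TV) + 6 * (q * τ * E)
      + X + lam * (8 * (q * τ * E)) + lam⁻¹ * (s * B + (1 / 2) * (q * τ * E))
      + (kap * (s * B) + kap⁻¹ * ((1 / 2) * (q * τ * E))) := by
    intro lam kap hl hk
    have g := h lam kap hl hk
    have f1 : q * τ * s⁻¹ * OM ≤ 2 * (q * τ * E) := by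
      calc q * τ * s⁻¹ * OM ≤ q * τ * s⁻¹ * (2 * s * E) :=
            mul_le_mul_of_nonneg_left hOM (by positivity)
        _ = 2 * (q * τ * E) := by field_simp
    have f2 : q * τ * s⁻¹ * (1 + 2 * lam) * OO ≤ 4 * (q * τ * E) + lam * (8 * (q * τ * E)) := by
      calc q * τ * s⁻¹ * (1 + 2 * lam) * OO ≤ q * τ * s⁻¹ * (1 + 2 * lam) * (4 * s * E) :=
            mul_le_mul_of_nonneg_left hOO (by positivity)
        _ = 4 * (q * τ * E) + lam * (8 * (q * τ * E)) := by field_simp; ring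
    have f3 : s * lam⁻¹ * ZB ≤ lam⁻¹ * (s * B) := by
      calc s * lam⁻¹ * ZB ≤ s * lam⁻¹ * B := mul_le_mul_of_nonneg_left hZB (by positivity)
        _ = lam⁻¹ * (s * B) := by ring
    have f4 : q * τ * (2 * lam)⁻¹ * ZM ≤ lam⁻¹ * ((1 / 2) * (q * τ * E)) := by
      calc q * τ * (2 * lam)⁻¹ * ZM ≤ q * τ * (2 * lam)⁻¹ * E :=
            mul_le_mul_of_nonneg_left hZM (by positivity)
        _ = lam⁻¹ * ((1 / 2) * (q * τ * E)) := by rw [mul_inv]; ring
    have f5 : s * kap * EB ≤ kap * (s * B) := by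
      calc s * kap * EB ≤ s * kap * B := mul_le_mul_of_nonneg_left hEB (by positivity)
        _ = kap * (s * B) := by ring
    have f6 : q * τ * (2 * kap)⁻¹ * EM ≤ kap⁻¹ * ((1 / 2) * (q * τ * E)) := by
      calc q * τ * (2 * kap)⁻¹ * EM ≤ q * τ * (2 * kap)⁻¹ * E :=
            mul_le_mul_of_nonneg_left hEM (by positivity)
        _ = kap⁻¹ * ((1 / 2) * (q * τ * E)) := by rw [mul_inv]; ring
    have f7 : lam⁻¹ * (s * B + (1 / 2) * (q * τ * E))
        = lam⁻¹ * (s * B) + lam⁻¹ * ((1 / 2) * (q * τ * E)) := by ring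
    rw [f7]
    linarith
  have hqtE : 0 ≤ q * τ * E := by positivity
  have hsB : 0 ≤ s * B := by positivity
  -- kap
  have h3 : ∀ lam : ℝ, 0 < lam → (1 / 2) * G ≤ √(TP * TV) + 6 * (q * τ * E)
      + X + lam * (8 * (q * τ * E)) + lam⁻¹ * (s * B + (1 / 2) * (q * τ * E))
      + 2 * √((s * B) * ((1 / 2) * (q * τ * E))) := by
    intro lam hl
    refine inf_lin hsB (by positivity) fun kap hk => ?_
    have := h2 lam kap hl hk
    linarith
  have h4 : (1 / 2) * G ≤ √(TP * TV) + 6 * (q * τ * E) + X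
      + 2 * √((s * B) * ((1 / 2) * (q * τ * E)))
      + 2 * √((8 * (q * τ * E)) * (s * B + (1 / 2) * (q * τ * E))) := by
    refine inf_lin (by positivity) (by positivity) fun lam hl => ?_
    have := h3 lam hl
    linarith
  have r1 : √((s * B) * ((1 / 2) * (q * τ * E))) ≤ (1 + τ) * √D := by
    calc √((s * B) * ((1 / 2) * (q * τ * E))) ≤ √((1 + τ) ^ 2 * D) := by
          refine Real.sqrt_le_sqrt ?_
          have e : s * B * (1 / 2 * (q * τ * E)) = (τ / 2) * D := by rw [hD]; ring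
          rw [e]
          exact mul_le_mul_of_nonneg_right (by nlinarith) hD0
      _ = (1 + τ) * √D := by rw [Real.sqrt_mul (sq_nonneg _), Real.sqrt_sq (by positivity)]
  have r2 : √((8 * (q * τ * E)) * (s * B + (1 / 2) * (q * τ * E)))
      ≤ 3 * (1 + τ) * √D + 2 * (q * τ * E) := by
    refine (sqrt_add_split (by positivity) hsB (by positivity)).trans (add_le_add ?_ ?_)
    · calc √((8 * (q * τ * E)) * (s * B)) ≤ √((3 * (1 + τ)) ^ 2 * D) := by
            refine Real.sqrt_le_sqrt ?_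
            have e : 8 * (q * τ * E) * (s * B) = (8 * τ) * D := by rw [hD]; ring
            rw [e]
            exact mul_le_mul_of_nonneg_right (by nlinarith) hD0
        _ = 3 * (1 + τ) * √D := by
            rw [Real.sqrt_mul (sq_nonneg _), Real.sqrt_sq (by positivity)]
    · rw [show (8 * (q * τ * E)) * ((1 / 2) * (q * τ * E)) = (2 * (q * τ * E)) ^ 2 by ring,
        Real.sqrt_sq (by positivity)]
  have hD1 : 0 ≤ √D := Real.sqrt_nonneg _
  have hk : (8 * (1 + τ)) * √D ≤ (8 * ((1 + c) * (1 + τ))) * √D := by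
    refine mul_le_mul_of_nonneg_right ?_ hD1
    have : 0 ≤ c * (1 + τ) := by positivity
    nlinarith
  have h5 : (1 / 2) * G ≤ 18 * ((1 + c) * (1 + τ)) * √D + 6 * (q * τ * E)
      + (x * (q * τ * E) + y * √D) + 2 * ((1 + τ) * √D)
      + 2 * (3 * (1 + τ) * √D + 2 * (q * τ * E)) := by linarith
  nlinarith

end Vale.Agent.P141.H912
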