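import Vale.Agent.P141.H222.NumOf
import Vale.Agent.P141.H736.FixBD
import Vale.Agent.P141.H457.CutBC
import Vale.Agent.P141.H74.CapBC
import Vale.Agent.P141.H329.WinS
import Vale.Agent.P141.H652.NumR
import Vale.Agent.P141.H652.NumQ
import Vale.Agent.P141.H548.LagU
import Vale.Agent.P141.H302.BornU
import Vale.Agent.P141.H989.CrB3

/-!
# P141, line (A), increasing part: the pair `(Bg, Cg)` at one `x0`, class data

`pt` : the point of `H222.Of.numBC_of`; `numBC : NumBC 2160000 2`; `lBCg : LBCg`.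
-/

set_option linter.unusedSectionVars false
set_option linter.unusedVariables false

namespace Vale.Agent.P141.H912.Pt

open Finset Matrix
open Vale.Agent.P075 (Ix)
open Vale.Agent.P141.PL (Pt iv ix cx mem_iv)
open Vale.Agent.P141.PL.H315 (Tri)
open Vale.Agent.P141.H48 (US ES BSl)
open Vale.Agent.P141.H305 (ClsM kapM)
open Vale.Agent.P141.H103 (GW)
open Vale.Agent.P141.H401 (StQ FibU FibP cb)
open Vale.Agent.P141.H677 (rt cP KT GT tr_T)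
open Vale.Agent.P141.H652 (Th Th_psd eb ah dB payS PbS)
open Vale.Agent.P141.H505.Sk1 (eT Ch)
open Vale.Agent.P141.H408
open Vale.Agent.P141.H808 (cS thS)
open Vale.Agent.P141.H886 (NumF SumQ SumU SumL NumBC pBC)
open Vale.Agent.P141.H548 (vN oN chg kinds cS_min cS_zero)
open Vale.Agent.P141.H302 (bN tS Pr pr_not pr_ch nmB_bN Wn_bN)
open Vale.Agent.P141.H989.CrB (fCRB mB)
open Vale.Agent.P141.H419.WFamR (Wn Dn En nmH nmD nmE nmB c1 nmD_c1 nmE_c1)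
open Vale.Agent.P141.H419.PairB (gnV)
open Vale.Agent.P141.H457 (ct ct_in rs PG SD)
open Vale.Agent.P141.H874 (CP)
open Vale.Agent.P141.H736 (wE)

noncomputable section

open scoped Classical

/-! ### The cut of the second path -/

section cut

variable {κ : Type*} [Fintype κ] [DecidableEq κ] {be : ℝ} {T e d : ℕ → ℤ → ℤ → Matrix κ κ ℝ}

theorem Wn_ct (N : ℕ) (R S : ℤ) (f : ℤ → ℤ → κ → ℝ) (a : ℕ) :
    Wn N R S be T (ct N S R f) a = Wn N R S be T f a := by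
  unfold Wn
  refine sum_congr rfl fun x hx => sum_congr rfl fun w hw => ?_
  rw [ct_in f hx hw]

theorem Dn_ct (N : ℕ) (R S : ℤ) (f : ℤ → ℤ → κ → ℝ) (a : ℕ) :
    Dn N R S d (ct N S R f) a = Dn N R S d f a := by
  unfold Dn
  refine sum_congr rfl fun x hx => sum_congr rfl fun w hw => ?_
  rw [ct_in f hx hw]

theorem En_ct (N : ℕ) (R S : ℤ) (f : ℤ → ℤ → κ → ℝ) (a : ℕ) :
    En N R S e (ct N S R f) a = En N R S e f a := by
  unfold En
  refine sum_congr rfl fun x hx => sum_congr rfl fun w hw => ?_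
  rw [ct_in f hx hw]

theorem rs_ct (P : ℤ → ℤ → Prop) (k N : ℕ) (R S : ℤ) (f : ℤ → ℤ → κ → ℝ) :
    rs P k (ct N S R f) = ct N S R (rs P k f) := by
  funext x w
  unfold H457.rs H457.ct
  by_cases h1 : P w (ix k x) <;> by_cases h2 : x ∈ iv N S ∧ w ∈ iv N R <;> simp [h1, h2]

theorem nmH_ct (N : ℕ) (R S : ℤ) (c : ℕ → ℤ → ℤ → κ → ℝ) (r : ℕ) :
    nmH N R S be T (fun k => ct N S R (c k)) r = nmH N R S be T c r := Wn_ct _ _ _ _ _

theorem nmD_ct (N : ℕ) (R S : ℤ) (c : ℕ → ℤ → ℤ → κ → ℝ) (r : ℕ) :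
    nmD N R S d (fun k => ct N S R (c k)) r = nmD N R S d c r :=
  sum_congr rfl fun _ _ => Dn_ct _ _ _ _ _

theorem nmE_ct (N : ℕ) (R S : ℤ) (c : ℕ → ℤ → ℤ → κ → ℝ) (r : ℕ) :
    nmE N R S e (fun k => ct N S R (c k)) r = nmE N R S e c r :=
  sum_congr rfl fun _ _ => En_ct _ _ _ _ _

theorem nmB_ct (N : ℕ) (R S : ℤ) (P : ℕ → ℤ → ℤ → Prop) (c : ℕ → ℤ → ℤ → κ → ℝ) (r : ℕ) :
    nmB N R S be T P (fun k => ct N S R (c k)) r = nmB N R S be T P c r := by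
  unfold nmB
  refine sum_congr rfl fun k _ => ?_
  rw [rs_ct, Wn_ct]

theorem wE_ct {N : ℕ} {R S : ℤ} {x z : ℤ} (hx : x ∈ iv N S) (hz : z ∈ iv N R) (k : ℕ)
    (f : ℤ → ℤ → κ → ℝ) : wE be T k (ct N S R f) x z = wE be T k f x z := by
  unfold H736.wE
  rw [ct_in f hx hz]

end cut

/-! ### The numbers -/

/-- the numbers of the second slot -/
def fE : NumF := fun ι _ _ p n ez F1 F2 F3 o K x s r U g u v Q1 Q2 Q3 x0 =>
  (∑ l ∈ range (K + 1), (3 / 4 : ℝ) ^ l *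
      vN 0 l ι p n ez F1 F2 F3 o K x s r U g u v Q1 Q2 Q3 x0) +
    (∑ l ∈ range (K + 1), (3 / 4 : ℝ) ^ l *
      vN 1 l ι p n ez F1 F2 F3 o K x s r U g u v Q1 Q2 Q3 x0) +
    (∑ l ∈ range (K + 1), (3 / 4 : ℝ) ^ l *
      oN l ι p n ez F1 F2 F3 o K x s r U g u v Q1 Q2 Q3 x0) +
    (∑ l ∈ range (K + 1), (3 / 4 : ℝ) ^ l *
      bN (l + 1) ι p n ez F1 F2 F3 o K x s r U g u v Q1 Q2 Q3 x0) +
    bN 0 ι p n ez F1 F2 F3 o K x s r U g u v Q1 Q2 Q3 x0 +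
    fCRB mB ι p n ez F1 F2 F3 o K x s r U g u v Q1 Q2 Q3 x0

theorem hE : SumU 1 fE :=
  SumU.add (SumU.add (SumU.add (SumU.add (SumU.add (H548.sumU_v (Nat.zero_le 1))
    (H548.sumU_v le_rfl)) H548.sumU_o) H302.sumU_b1) H302.sumU_b0) H989.CrB.sumU_mB

/-- the numbers of the first slot -/
def fB : NumF := fun ι _ _ p n ez F1 F2 F3 o K x s r U g u v Q1 Q2 Q3 x0 =>
  dB p s r U K x u F3 Q3 x0 +
    payS (beI p r) (p.lam s r) o K (cx K x) u (fun k => H652.bS p s r U K u F3 Q3 x0 k) x0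

theorem hB : SumU (-1) fB := H652.EBU

section pt

variable {ι : Type} [Fintype ι] [DecidableEq ι] {p : H401.Num} {s r ez : ℝ} {o : ℤ} {K : ℕ}
  {x : Pt} {U : Tri} {u v : ℤ → ℤ → ι → ℝ} {F2 : ℕ → Pt → ℝ} {x0 : ℤ}

/-- the variation below the charge -/
theorem ch_nn (ht : 0 < p.t) (ht1 : p.t ≤ 1) (he0 : 0 ≤ p.e0) (hs : 0 < s) (hr : 1 ≤ r) (a : ℕ)
    (x1 z : ℤ) (w : ι → ℝ) :
    0 ≤ kinds p s r o K x u x0 a x1 z w := by
  unfold H548.kinds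
  have h1 := H548.zm_nonneg ht hs hr o K x u x0 a x1 z w
  have h2 := H548.ze_nonneg ht hs hr o K x u x0 a x1 z w
  have h3 := H548.zd_nonneg ht hs hr o K x u x0 a x1 z w
  have h4 := H548.zq_nonneg ht hs hr o K x u x0 a x1 z w
  linarith

theorem dn_le (ht : 0 < p.t) (ht1 : p.t ≤ 1) (he0 : 0 ≤ p.e0) (hs : 0 < s) (hr : 1 ≤ r) (a : ℕ)
    (f : ℤ → ℤ → ι → ℝ) :
    (beI p r)⁻¹ * Dn K (cx K x).2.2 (cx K x).1
      (fun k y m => ah (p.lam s r) K (cx K x).2.1 (KT (p.lam s r) u y) (o - 2) x0 y k m) f a ≤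
      ∑ x1 ∈ iv K (cx K x).1, ∑ z ∈ iv K (cx K x).2.2,
        (chg p s r o K x u x0 a x1 z (f x1 z) + kinds p s r o K x u x0 a x1 z (f x1 z)) := by
  have hbe : 0 < beI p r := Real.rpow_pos_of_pos (div_pos ht (by linarith)) _
  unfold Dn
  rw [mul_sum]
  refine sum_le_sum fun x1 _ => ?_
  rw [mul_sum]
  refine sum_le_sum fun z _ => ?_
  have h1 := ch_nn (o := o) (K := K) (x := x) (u := u) (x0 := x0) ht ht1 he0 hs hr a x1 z (f x1 z)
  have h2 := H548.ze_nonneg ht hs hr o K x u x0 a x1 z (f x1 z)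
  have h3 : 0 ≤ (beI p r)⁻¹ := by positivity
  have h4 : 0 ≤ (ah (p.lam s r) K (cx K x).2.1 (KT (p.lam s r) u x1) (o - 2) x0 x1 a
    (ix (a + 1) z) *ᵥ f x1 z) ⬝ᵥ (ah (p.lam s r) K (cx K x).2.1 (KT (p.lam s r) u x1) (o - 2) x0
      x1 a (ix (a + 1) z) *ᵥ f x1 z) := sum_nonneg fun _ _ => mul_self_nonneg _
  have h5 := mul_nonneg h3 h4
  have h6 := mul_nonneg h3 h2
  unfold H548.chg
  unfold H548.eN at h6
  beta_reduce
  linarith

theorem en_le (ht : 0 < p.t) (ht1 : p.t ≤ 1) (he0 : 0 ≤ p.e0) (hs : 0 < s) (hr : 1 ≤ r) (a : ℕ)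
    (f : ℤ → ℤ → ι → ℝ) :
    (beI p r)⁻¹ * En K (cx K x).2.2 (cx K x).1
      (fun k y m => eb (p.lam s r) K (cx K x).2.1 (KT (p.lam s r) u y) (o - 2) x0 y (k + 1) m)
      f a ≤
      ∑ x1 ∈ iv K (cx K x).1, ∑ z ∈ iv K (cx K x).2.2,
        (chg p s r o K x u x0 a x1 z (f x1 z) + kinds p s r o K x u x0 a x1 z (f x1 z)) := by
  have hbe : 0 < beI p r := Real.rpow_pos_of_pos (div_pos ht (by linarith)) _
  unfold En
  rw [mul_sum]
  refine sum_le_sum fun x1 _ => ?_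
  rw [mul_sum]
  refine sum_le_sum fun z _ => ?_
  have h1 := ch_nn (o := o) (K := K) (x := x) (u := u) (x0 := x0) ht ht1 he0 hs hr a x1 z (f x1 z)
  have h2 := H548.ze_nonneg ht hs hr o K x u x0 a x1 z (f x1 z)
  have h3 : 0 ≤ (beI p r)⁻¹ := by positivity
  have h4 : 0 ≤ (ah (p.lam s r) K (cx K x).2.1 (KT (p.lam s r) u x1) (o - 2) x0 x1 a
    (ix (a + 1) z) *ᵥ f x1 z) ⬝ᵥ (ah (p.lam s r) K (cx K x).2.1 (KT (p.lam s r) u x1) (o - 2) x0
      x1 a (ix (a + 1) z) *ᵥ f x1 z) := sum_nonneg fun _ _ => mul_self_nonneg _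
  have h5 := mul_nonneg h3 h4
  have h6 := mul_nonneg h3 h2
  unfold H548.chg
  unfold H548.eN at h6
  beta_reduce
  linarith

end pt

theorem num_le {E EB c0 z t : ℝ} {J : ℕ} (hE : 0 ≤ E) (hB : 0 ≤ EB) (ht : 0 ≤ t) :
    18 * (120000 * ((J : ℝ) + 1) ^ 3) * (√(z ^ 2 * E * (t ^ 2 * EB)) + t ^ 2 * E) ≤
      2160000 * ((J : ℝ) + 1) ^ 3 *
        (√(z ^ 2 * E * ((2 * t) ^ 2 * EB)) + (2 * t) ^ 2 * E) := by
  have h1 : t ^ 2 ≤ (2 * t) ^ 2 := by nlinarith [sq_nonneg t]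
  have e : (18 : ℝ) * (120000 * ((J : ℝ) + 1) ^ 3) = 2160000 * ((J : ℝ) + 1) ^ 3 := by ring
  rw [e]
  refine mul_le_mul_of_nonneg_left (add_le_add (Real.sqrt_le_sqrt ?_)
    (mul_le_mul_of_nonneg_right h1 hE)) (by positivity)
  exact mul_le_mul_of_nonneg_left (mul_le_mul_of_nonneg_right h1 hB) (by positivity)

/-- terms of a nonnegative family -/
theorem ns {K : ℕ} {f : ℕ → ℝ} (h : ∀ l, 0 ≤ f l) :
    0 ≤ ∑ l ∈ range (K + 1), (3 / 4 : ℝ) ^ l * f l :=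
  sum_nonneg fun l _ => mul_nonneg (by positivity) (h l)

theorem first {K : ℕ} {f : ℕ → ℝ} (h : ∀ l, 0 ≤ f l) :
    f 0 ≤ ∑ l ∈ range (K + 1), (3 / 4 : ℝ) ^ l * f l := by
  have h1 := single_le_sum (f := fun l => (3 / 4 : ℝ) ^ l * f l)
    (fun l _ => mul_nonneg (by positivity) (h l)) (mem_range.2 (Nat.succ_pos K))
  simpa using h1

theorem pt (ι : Type) [Fintype ι] [DecidableEq ι] (p : H401.Num) (n : ℕ) (ez : ℝ)
    (F1 F2 F3 : ℕ → Pt → ℝ) (o : ℤ) (K : ℕ) (x : Pt) (s r : ℝ) (U : Tri) (g : ℤ → ℤ → ℝ)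
    (u v : ℤ → ℤ → ι → ℝ) (Q1 Q2 Q3 : ℕ → Pt → Prop) (ht : 0 < p.t) (ht1 : p.t ≤ 1)
    (he0 : 0 < p.e0) (he01 : p.e0 ≤ 1) (hk3 : 0 < p.k3) (hk31 : p.k3 ≤ 1) (hd : 0 < p.d)
    (hd1 : p.d ≤ 1) (hc : 0 ≤ p.c) (he : 1 ≤ p.e) (hcP : 0 ≤ p.cP) (hL : 1 ≤ p.L)
    (ho : o = 1 ∨ o = -1) (hK : K ≤ n) (hs : 0 < s) (hr : 1 ≤ r)
    (hcls : ClsM K x s r (p.L * p.t ^ (2 - p.c) * √s) (kapM p.L p.t p.a s r) U g u v)
    (q1 : BSl n p.e p.cP F1 Q1) (q2 : BSl n ez p.cP F2 Q2) (q3 : BSl n p.e p.cP F3 Q3)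
    (hez : 0 < ez) (f1 : FibU p K x s r U u) (f2 : FibP p K x s r U v) :
    (∀ x0, 0 ≤ fE ι p n ez F1 F2 F3 o K x s r U g u v Q1 Q2 Q3 x0) ∧
    (∀ x0, 0 ≤ fB ι p n ez F1 F2 F3 o K x s r U g u v Q1 Q2 Q3 x0) ∧
    ∀ t ∈ rt (cx K x), ∀ x0 ∈ iv K t, ∀ (z : ℝ) (J : ℕ), gI p s r ≤ z → z ≤ cCI p s r →
      (2 * cCI p s r) ^ 2 ≤ 4 ^ J * z ^ 2 →
      pBC (p.al U K) o K (cx K x) (beI p r) (p.lam s r) u (cb p s r U K u F3 Q3)
          (C1 p ez U K v F2) (tauI p s r) z x0 ≤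
        2160000 * ((J : ℝ) + 1) ^ 3 *
          (√(z ^ 2 * fE ι p n ez F1 F2 F3 o K x s r U g u v Q1 Q2 Q3 x0 *
            (tauI p s r ^ 2 * fB ι p n ez F1 F2 F3 o K x s r U g u v Q1 Q2 Q3 x0)) +
          tauI p s r ^ 2 * fE ι p n ez F1 F2 F3 o K x s r U g u v Q1 Q2 Q3 x0) := by
  have hl : 0 < p.lam s r := H401.Num.lam_pos (p := p) ht hs hr
  have hy : 0 < p.t / r := div_pos ht (by linarith)
  have hbe : 0 < beI p r := Real.rpow_pos_of_pos hy _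
  have hbe1 : beI p r ≤ 1 := H548.beI_le_one ht ht1 he0.le hr
  have hth : 0 < p.th s r := H401.Num.th_pos (p := p) ht hs hr
  have hτ : 0 < tauI p s r := by
    unfold tauI
    linarith
  have nv : ∀ x0 j l, 0 ≤ vN j l ι p n ez F1 F2 F3 o K x s r U g u v Q1 Q2 Q3 x0 := by
    intro x0 j l
    unfold H548.vN
    refine sum_nonneg fun k _ => sum_nonneg fun x1 _ => sum_nonneg fun z _ => ?_
    have h1 := ch_nn (o := o) (K := K) (x := x) (u := u) (x0 := x0) ht ht1 he0.le hs hr (k + l)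
      x1 z (cS p ez U K v F2 x0 (k + j) x1 z)
    have h2 := H548.kinds_le (K := K) ht ht1 he0.le hs hr o x u x0 (k + l) x1 z
      (cS p ez U K v F2 x0 (k + j) x1 z)
    linarith
  have nT : ∀ x0 (c : ℤ → ℤ → ι → ℝ) a x1 z, 0 ≤ eT c (thS p s r o K x u x0) a x1 z :=
    fun x0 c a x1 z => H302.eT_nn ht hs hr c a x1 z
  have no : ∀ x0 l, 0 ≤ oN l ι p n ez F1 F2 F3 o K x s r U g u v Q1 Q2 Q3 x0 := by
    intro x0 l
    unfold H548.oN
    exact sum_nonneg fun x1 _ => sum_nonneg fun z _ => nT _ _ _ _ _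
  have nb : ∀ x0 l, 0 ≤ bN l ι p n ez F1 F2 F3 o K x s r U g u v Q1 Q2 Q3 x0 := by
    intro x0 l
    unfold H302.bN
    refine sum_nonneg fun k _ => sum_nonneg fun x1 _ => sum_nonneg fun z _ => ?_
    split_ifs
    · exact nT _ _ _ _ _
    · exact le_rfl
  have nC : ∀ x0, 0 ≤ fCRB mB ι p n ez F1 F2 F3 o K x s r U g u v Q1 Q2 Q3 x0 := by
    intro x0
    unfold H989.CrB.fCRB
    refine sum_nonneg fun k _ => sum_nonneg fun x1 _ => sum_nonneg fun z _ => ?_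
    split_ifs
    · exact nT _ _ _ _ _
    · exact le_rfl
  have hp : ∀ x0 : ℤ, ∀ k y m, (tS p s r o K x u x0 k y m).PosSemidef := fun x0 k y m =>
    Th_psd (tr_T hl K u y) _ _ _ _ _
  have hE0 : ∀ x0, 0 ≤ fE ι p n ez F1 F2 F3 o K x s r U g u v Q1 Q2 Q3 x0 := by
    intro x0
    unfold fE
    have h1 := ns (K := K) (nv x0 0)
    have h2 := ns (K := K) (nv x0 1)
    have h3 := ns (K := K) (no x0)
    have h4 := ns (K := K) (fun l => nb x0 (l + 1))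
    have h5 := nb x0 0
    have h6 := nC x0
    linarith
  have npay : ∀ x0, 0 ≤ payS (beI p r) (p.lam s r) o K (cx K x) u
      (fun k => H652.bS p s r U K u F3 Q3 x0 k) x0 := fun x0 =>
    H652.payS_nonneg hbe hl _
  have hB0 : ∀ x0, 0 ≤ fB ι p n ez F1 F2 F3 o K x s r U g u v Q1 Q2 Q3 x0 := fun x0 =>
    add_nonneg (H652.dB_nonneg x x0) (npay x0)
  refine ⟨hE0, hB0, fun t' h4 x0 h5 z J hz1 hz2 hJ => ?_⟩
  have hz0 : 0 < z := lt_of_lt_of_le (mul_pos (Real.rpow_pos_of_pos hy _) hτ) hz1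
  have hT := H652.wt_Th (fun y => tr_T hl K u y) (cx K x).2.1 (o - 2) x0
  refine (H329.WinBC.pBC_cls ht hs hr ez U o K x u v F2 F3 Q3 (y := tauI p s r) (z := z) hτ hz0
    x0).trans ?_
  have e1 := sum_congr (rfl : Ico 0 K = Ico 0 K) fun k hk =>
    H457.gnV_ext (be := beI p r) (s := z ^ 2)
      (T := fun a x1 j => Th (p.lam s r) K (cx K x).2.1 (KT (p.lam s r) u x1) (o - 2) x0 x1 a j)
      (N := K) (R₁ := (cx K x).2.1) (S₁ := (cx K x).1) (T₁ := (cx K x).2.2)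
      (H652.bS p s r U K u F3 Q3 x0) (H652.bS p s r U K u F3 Q3 x0) (cS p ez U K v F2 x0)
      (fun k => ct K (cx K x).1 (cx K x).2.2 (cS p ez U K v F2 x0 k)) (mem_Ico.1 hk).2
      (cP o x0 (k + 1)) (fun _ _ _ _ => rfl) (fun y hy w hw => (ct_in _ hy hw).symm)
  refine (le_of_eq e1).trans ?_
  have hE := hE0 x0
  have hEB := hB0 x0
  have l1 := ns (K := K) (nv x0 0)
  have l2 := ns (K := K) (nv x0 1)
  have l3 := ns (K := K) (no x0)
  have l4 := ns (K := K) (fun l => nb x0 (l + 1))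
  have l5 := nb x0 0
  have l6 := nC x0
  have eE : fE ι p n ez F1 F2 F3 o K x s r U g u v Q1 Q2 Q3 x0 =
    (∑ l ∈ range (K + 1), (3 / 4 : ℝ) ^ l *
      vN 0 l ι p n ez F1 F2 F3 o K x s r U g u v Q1 Q2 Q3 x0) +
    (∑ l ∈ range (K + 1), (3 / 4 : ℝ) ^ l *
      vN 1 l ι p n ez F1 F2 F3 o K x s r U g u v Q1 Q2 Q3 x0) +
    (∑ l ∈ range (K + 1), (3 / 4 : ℝ) ^ l *
      oN l ι p n ez F1 F2 F3 o K x s r U g u v Q1 Q2 Q3 x0) +
    (∑ l ∈ range (K + 1), (3 / 4 : ℝ) ^ l *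
      bN (l + 1) ι p n ez F1 F2 F3 o K x s r U g u v Q1 Q2 Q3 x0) +
    bN 0 ι p n ez F1 F2 F3 o K x s r U g u v Q1 Q2 Q3 x0 +
    fCRB mB ι p n ez F1 F2 F3 o K x s r U g u v Q1 Q2 Q3 x0 := rfl
  have k2 := first (K := K) (nv x0 1)
  have k3 := first (K := K) (no x0)
  have a1 : (∑ l ∈ range (K + 1), (3 / 4 : ℝ) ^ l *
      vN 0 l ι p n ez F1 F2 F3 o K x s r U g u v Q1 Q2 Q3 x0) ≤
      fE ι p n ez F1 F2 F3 o K x s r U g u v Q1 Q2 Q3 x0 := by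
    rw [eE]
    linarith
  have a2 : vN 1 0 ι p n ez F1 F2 F3 o K x s r U g u v Q1 Q2 Q3 x0 ≤
      fE ι p n ez F1 F2 F3 o K x s r U g u v Q1 Q2 Q3 x0 := by
    rw [eE]
    linarith
  have a3 : oN 0 ι p n ez F1 F2 F3 o K x s r U g u v Q1 Q2 Q3 x0 ≤
      fE ι p n ez F1 F2 F3 o K x s r U g u v Q1 Q2 Q3 x0 := by
    rw [eE]
    linarith
  have a4 : (∑ l ∈ range (K + 1), (3 / 4 : ℝ) ^ l *
      bN (l + 1) ι p n ez F1 F2 F3 o K x s r U g u v Q1 Q2 Q3 x0) ≤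
      fE ι p n ez F1 F2 F3 o K x s r U g u v Q1 Q2 Q3 x0 := by
    rw [eE]
    linarith
  have a5 : bN 0 ι p n ez F1 F2 F3 o K x s r U g u v Q1 Q2 Q3 x0 ≤
      fE ι p n ez F1 F2 F3 o K x s r U g u v Q1 Q2 Q3 x0 := by
    rw [eE]
    linarith
  have a6 : fCRB mB ι p n ez F1 F2 F3 o K x s r U g u v Q1 Q2 Q3 x0 ≤
      fE ι p n ez F1 F2 F3 o K x s r U g u v Q1 Q2 Q3 x0 := by
    rw [eE]
    linarith
  have hPr : ∀ k w m, Pr (cS p ez U K v F2 x0) k w m → Ch (cS p ez U K v F2 x0) k m (ix k w) :=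
    fun k w m h => pr_ch k w m h
  have hC0 : nmH K (cx K x).2.2 (cx K x).1 (beI p r) (tS p s r o K x u x0)
      (c1 K (fun k => ct K (cx K x).1 (cx K x).2.2 (cS p ez U K v F2 x0 k))) 0 ≤
      fE ι p n ez F1 F2 F3 o K x s r U g u v Q1 Q2 Q3 x0 := by
    show nmH K (cx K x).2.2 (cx K x).1 (beI p r) (tS p s r o K x u x0)
      (fun k => ct K (cx K x).1 (cx K x).2.2 (c1 K (cS p ez U K v F2 x0) k)) 0 ≤ _
    rw [nmH_ct]
    refine le_trans (le_of_eq ?_) a3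
    unfold H419.WFamR.nmH H419.WFamR.Wn H548.oN
    refine sum_congr rfl fun x1 _ => sum_congr rfl fun z' _ => ?_
    have e2 : c1 K (cS p ez U K v F2 x0) 0 x1 z' = cS p ez U K v F2 x0 1 x1 z' := by
      show cS p ez U K v F2 x0 (min (0 + 1) K) x1 z' = _
      rw [cS_min, cS_min p ez U K v F2 x0 1, min_assoc, min_self]
    rw [e2, Nat.zero_min]
    rfl
  have hC1 : (beI p r)⁻¹ * nmD K (cx K x).2.2 (cx K x).1
      (fun k y m => ah (p.lam s r) K (cx K x).2.1 (KT (p.lam s r) u y) (o - 2) x0 y k m)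
      (c1 K (fun k => ct K (cx K x).1 (cx K x).2.2 (cS p ez U K v F2 x0 k))) 0 ≤
      fE ι p n ez F1 F2 F3 o K x s r U g u v Q1 Q2 Q3 x0 := by
    show (beI p r)⁻¹ * nmD K (cx K x).2.2 (cx K x).1 _
      (fun k => ct K (cx K x).1 (cx K x).2.2 (c1 K (cS p ez U K v F2 x0) k)) 0 ≤ _
    rw [nmD_ct, nmD_c1, mul_sum, ← range_eq_Ico]
    refine le_trans ?_ a2
    unfold H548.vN
    exact sum_le_sum fun k _ => dn_le ht ht1 he0.le hs hr _ _
  have hC2 : (beI p r)⁻¹ * nmE K (cx K x).2.2 (cx K x).1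
      (fun k y m => eb (p.lam s r) K (cx K x).2.1 (KT (p.lam s r) u y) (o - 2) x0 y (k + 1) m)
      (c1 K (fun k => ct K (cx K x).1 (cx K x).2.2 (cS p ez U K v F2 x0 k))) 0 ≤
      fE ι p n ez F1 F2 F3 o K x s r U g u v Q1 Q2 Q3 x0 := by
    show (beI p r)⁻¹ * nmE K (cx K x).2.2 (cx K x).1 _
      (fun k => ct K (cx K x).1 (cx K x).2.2 (c1 K (cS p ez U K v F2 x0) k)) 0 ≤ _
    rw [nmE_ct, nmE_c1, mul_sum, ← range_eq_Ico]
    refine le_trans ?_ a2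
    unfold H548.vN
    exact sum_le_sum fun k _ => en_le ht ht1 he0.le hs hr _ _
  have hC3 : ∑ k ∈ Ico 0 K, ∑ y ∈ iv K (cx K x).1, ∑ z' ∈ iv K (cx K x).2.2,
      (if ∃ w, ix (k + 1) w = cP o x0 (k + 1) - ix (k + 1) y - ix (k + 1) z' ∧
          PbS p s r U K u F3 Q3 x0 k w (ix k y) then
        wE (beI p r) (tS p s r o K x u x0) k
          (ct K (cx K x).1 (cx K x).2.2 (cS p ez U K v F2 x0 (k + 1))) y z' else 0) ≤
      fE ι p n ez F1 F2 F3 o K x s r U g u v Q1 Q2 Q3 x0 := by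
    refine le_trans (le_of_eq ?_) a6
    unfold H989.CrB.fCRB
    refine sum_congr rfl fun k _ => sum_congr rfl fun y hy => sum_congr rfl fun z' hz' => ?_
    rw [wE_ct hy hz']
    rfl
  have hC4 : ∑ k ∈ Ico 0 K, Wn K (cx K x).2.2 (cx K x).1 (beI p r) (tS p s r o K x u x0)
      (rs (Pr (cS p ez U K v F2 x0) k) k
        (ct K (cx K x).1 (cx K x).2.2 (cS p ez U K v F2 x0 (k + 1)))) k ≤
      fE ι p n ez F1 F2 F3 o K x s r U g u v Q1 Q2 Q3 x0 := by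
    refine le_trans (le_of_eq ?_) ((Wn_bN ht hs hr hPr n F1 F3 g Q1 Q2 Q3).trans a5)
    refine sum_congr rfl fun k _ => ?_
    rw [rs_ct, Wn_ct]
  have hW0 : H912.wS K (nmH K (cx K x).2.2 (cx K x).1 (beI p r) (tS p s r o K x u x0)
      (fun k => ct K (cx K x).1 (cx K x).2.2 (cS p ez U K v F2 x0 k))) ≤
      fE ι p n ez F1 F2 F3 o K x s r U g u v Q1 Q2 Q3 x0 := by
    refine le_trans (le_of_eq ?_) hE
    unfold H912.wS
    refine sum_eq_zero fun l _ => ?_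
    rw [nmH_ct]
    unfold H419.WFamR.nmH H419.WFamR.Wn
    rw [sum_eq_zero, mul_zero]
    intro x1 _
    refine sum_eq_zero fun z' _ => ?_
    rw [cS_zero, zero_dotProduct]
  have hW1 : H912.wS K (fun q => (beI p r)⁻¹ * nmD K (cx K x).2.2 (cx K x).1
      (fun k y m => ah (p.lam s r) K (cx K x).2.1 (KT (p.lam s r) u y) (o - 2) x0 y k m)
      (fun k => ct K (cx K x).1 (cx K x).2.2 (cS p ez U K v F2 x0 k)) q) ≤
      fE ι p n ez F1 F2 F3 o K x s r U g u v Q1 Q2 Q3 x0 := by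
    refine le_trans ?_ a1
    unfold H912.wS
    refine sum_le_sum fun l _ => mul_le_mul_of_nonneg_left ?_ (by positivity)
    beta_reduce
    rw [nmD_ct]
    unfold H419.WFamR.nmD H548.vN
    rw [mul_sum, ← range_eq_Ico]
    exact sum_le_sum fun k _ => dn_le ht ht1 he0.le hs hr _ _
  have hW2 : H912.wS K (fun q => (beI p r)⁻¹ * nmE K (cx K x).2.2 (cx K x).1
      (fun k y m => eb (p.lam s r) K (cx K x).2.1 (KT (p.lam s r) u y) (o - 2) x0 y (k + 1) m)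
      (fun k => ct K (cx K x).1 (cx K x).2.2 (cS p ez U K v F2 x0 k)) q) ≤
      fE ι p n ez F1 F2 F3 o K x s r U g u v Q1 Q2 Q3 x0 := by
    refine le_trans ?_ a1
    unfold H912.wS
    refine sum_le_sum fun l _ => mul_le_mul_of_nonneg_left ?_ (by positivity)
    beta_reduce
    rw [nmE_ct]
    unfold H419.WFamR.nmE H548.vN
    rw [mul_sum, ← range_eq_Ico]
    exact sum_le_sum fun k _ => en_le ht ht1 he0.le hs hr _ _
  have hW3 : H912.wS K (nmB K (cx K x).2.2 (cx K x).1 (beI p r) (tS p s r o K x u x0)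
      (Pr (cS p ez U K v F2 x0))
      (fun k => ct K (cx K x).1 (cx K x).2.2 (cS p ez U K v F2 x0 k))) ≤
      fE ι p n ez F1 F2 F3 o K x s r U g u v Q1 Q2 Q3 x0 := by
    refine le_trans ?_ a4
    unfold H912.wS
    refine sum_le_sum fun l _ => mul_le_mul_of_nonneg_left ?_ (by positivity)
    rw [nmB_ct]
    exact nmB_bN ht hs hr hPr l n F1 F3 g Q1 Q2 Q3
  have pB := npay x0
  have dBn : 0 ≤ dB p s r U K x u F3 Q3 x0 := H652.dB_nonneg x x0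
  have hB1 := (H652.bS_hB1 (p := p) (F3 := F3) (Q3 := Q3) (K := K) (s := s) (r := r) (U := U)
    (u := u) x x0).trans (le_add_of_nonneg_right pB)
  have hB2 := (H652.bS_hB2 (p := p) (F3 := F3) (Q3 := Q3) (K := K) (s := s) (r := r) (U := U)
    (u := u) x x0).trans (le_add_of_nonneg_right pB)
  have hB3 := (H652.pay_hB3 (K := K) (M := cx K x) (o := o) (x0 := x0) (u := u) hbe hl
    (H652.bS p s r U K u F3 Q3 x0)).trans (le_add_of_nonneg_left dBn)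
  have hB4 := (H652.pay_hB4 (K := K) (M := cx K x) (o := o) (x0 := x0) (u := u) (l := p.lam s r)
    hbe (H652.bS p s r U K u F3 Q3 x0)).trans (le_add_of_nonneg_left dBn)
  have hJ' : 2 * cCI p s r ^ 2 ≤ z ^ 2 * 4 ^ J := by
    have h6 := sq_nonneg (cCI p s r)
    have e6 : (2 * cCI p s r) ^ 2 = 4 * cCI p s r ^ 2 := by ring
    have e7 : z ^ 2 * (4 : ℝ) ^ J = 4 ^ J * z ^ 2 := mul_comm _ _
    rw [e6] at hJ
    rw [e7]
    linarith
  have key := H736.fix_BC2 (be := beI p r)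
    (T := fun k y m => Th (p.lam s r) K (cx K x).2.1 (KT (p.lam s r) u y) (o - 2) x0 y k m)
    hbe hbe1 (s := z ^ 2) (q := p.th s r ^ 2) (τ := 2) (by positivity) (by positivity)
    (by norm_num) le_rfl hT
    (fun k y m => H652.Th_le_two (tr_T hl K u y) (o - 2) x0 y k m) (N := K)
    (b := H652.bS p s r U K u F3 Q3 x0)
    (c := fun k => ct K (cx K x).1 (cx K x).2.2 (cS p ez U K v F2 x0 k))
    (Pb := PbS p s r U K u F3 Q3 x0) (Pc := Pr (cS p ez U K v F2 x0))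
    (H652.PbS_off x0)
    (fun k hk => H457.ct_chg hk.le fun w _ m _ h => pr_not k hk w m h)
    (H652.bS_capk hth x0) (H652.bS_capk1 hth x0) (H652.bS_capN hth x0)
    (C := cCI p s r ^ 2)
    (fun k a n' m h1 h2 => H457.SD_cut_cap (h1.trans h2.le) h2 (sq_nonneg _)
      (fun n'' hn m' hm => H74.CapBC.capX ht ht1 hd1 he0.le hs hr hez hK hcls.toCls q2 x0
        (h1.trans h2.le) h2 (by omega) hn hm) n' m)
    (fun k a n' m h1 h2 => H457.SD_cut_cap (h1.trans h2.le) h2 (sq_nonneg _)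
      (fun n'' hn m' hm => H74.CapBC.capX ht ht1 hd1 he0.le hs hr hez hK hcls.toCls q2 x0
        (h1.trans h2.le) h2 (by omega) hn hm) n' m)
    (J := J) hJ' (R₁ := (cx K x).2.1) (S₁ := (cx K x).1) (T₁ := (cx K x).2.2)
    (cc := cP o x0) (H677.cP_pl ho x0) hE hEB
    hB1 hB2 hB3 hB4 hC0 hC1 hC2 hC3 hC4 hW0 hW1 hW2 hW3
  exact key.trans (num_le (c0 := 0) hE hEB hth.le)

/-- **The numbers of the pair `(Bg, Cg)`.** -/
theorem numBC : NumBC 2160000 2 := H222.Of.numBC_of hE hB pt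

/-- **The leaf `LBCg`.** -/
theorem lBCg : LBCg := H886.lbc_end (by norm_num) (by norm_num) numBC

end

end Vale.Agent.P141.H912.Pt
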